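import Vale.Agent.P088.R2.H814.B2.Pz4
import Vale.Agent.P088.R2.H814.B2.Wpt
import Vale.Agent.P088.R2.H814.B2.Kp3
import Vale.Agent.P088.R2.H942.Zt7

/-!
# The pointwise consequences on the package, with constants which only depend on `n` and `q.ph`
-/

open Set Filter
open scoped ContDiff Topology Matrix

noncomputable section

namespace Vale.Agent.P088.R2.H814.An

open Vale.Agent.P088.LR Vale.Agent.P088.R2.H31.EP
open Vale.Agent.P088.HY hiding dd dd_comm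
open Vale.Agent.P088.R2.H961.GW
open Vale.Agent.P088.R2.H475.Z (frx fry)
open Vale.Agent.P088.R2.H942.Z (T814 t814)
open Vale.Agent.P088.R2.H516.O (WB)

variable {n : ℕ} {α β : Type*} {c : PhC}

/-- Restriction of a family. -/
theorem Rz.res {q : α → Cst} {d : α → Pk n} {U : α → Set (VV n)} {r : α → VV n → ℝ}
    (h : Rz q d U r c) (φ : β → α) {V : β → Set (VV n)} (hV : ∀ b, IsOpen (V b))
    (hs : ∀ b, V b ⊆ U (φ b)) :
    Rz (fun b => q (φ b)) (fun b => d (φ b)) V (fun b => r (φ b)) c where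
  zq b := h.zq (φ b)
  pk b := h.pk (φ b)
  hc b := h.hc (φ b)
  op := hV
  h1 b z hz := h.h1 (φ b) z (hs b hz)
  h2 b z hz := h.h2 (φ b) z (hs b hz)
  hx b z hz := h.hx (φ b) z (hs b hz)
  hy b z hz := h.hy (φ b) z (hs b hz)
  hu b z hz := h.hu (φ b) z (hs b hz)
  r1 b z hz := h.r1 (φ b) z (hs b hz)
  r2 b z hz := h.r2 (φ b) z (hs b hz)
  Ne b z hz := h.Ne (φ b) z (hs b hz)

/-- The index with an open set. -/
def Iv (n : ℕ) (c : PhC) (X : Cst → Pk n → Set (VV n)) : Type :=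
  {p : Ix n c × Set (VV n) // IsOpen p.2 ∧ p.2 ⊆ X p.1.1.1 p.1.1.2}

/-- The family of zone II with an open set. -/
theorem rz2v (n : ℕ) (c : PhC) : Rz (n := n) (fun a : Iv n c U2 => a.1.1.1.1)
    (fun a => a.1.1.1.2) (fun a => a.1.2) (fun a z => √(a.1.1.1.2.r2 z)) c :=
  (rz2 n c).res (fun a : Iv n c U2 => a.1.1) (fun a => a.2.1) fun a => a.2.2

theorem oo_zero {U : α → Set (VV n)} {σ : α → Sl (VV n) (Fin n)} (i : Fin n) :
    OO U o1 fun a => (σ a).D i (0 : VV n → ℝ) :=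
  ⟨0, le_rfl, fun a z _ => by
    have : (σ a).D i (0 : VV n → ℝ) z = 0 := D_const (σ a) 0 i z
    change |(σ a).D i (0 : VV n → ℝ) z| ≤ 0 * o1 a z
    rw [this]; simp⟩

/-- **The common bounds in zone II.** -/
theorem kb_pk (n : ℕ) (c : PhC) : ∃ K, 1 ≤ K ∧ ∀ (q : Cst) (d : Pk n), Zq' n q → PkOk q d →
    q.ph = c → ∀ z ∈ U2 q d, Kb d.sx d.sy (frx d.s₁) (fry d.s₂) 0 0 (d.W q) (√(d.r2 z))
      (d.E q z) (d.N q z) K z := by
  have h := rz2 n c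
  obtain ⟨K, h1, hK⟩ := h.wb.kb h.wf (v₁ := fun _ => 0) (v₂ := fun _ => 0)
    ⟨0, le_rfl, fun a z _ => by simp⟩
  exact ⟨K, h1, fun q d zq pk hc z hz => hK ⟨(q, d), zq, pk, hc⟩ z hz⟩

/-- **The absorption theorem (`tot`) in zone II.** -/
theorem t8_pk (n : ℕ) (c : PhC) : ∃ K, 0 ≤ K ∧ ∀ (q : Cst) (d : Pk n), Zq' n q → PkOk q d →
    q.ph = c → ∀ V : Set (VV n), IsOpen V → V ⊆ U2 q d → ∀ z ∈ V,
      ∀ (f f' : Fin n → VV n → ℝ) (A k : ℝ),
      Fb d.sx d.sy V f f' (d.E q z) (√(d.r2 z)) A (d.N q z + k) z →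
      T814 d.sx d.sy 0 0 (d.W q) f f' (frx d.s₁) (fry d.s₂) K A (d.E q z) (d.N q z)
        (√(d.r2 z)) k z := by
  have h := rz2v n c
  obtain ⟨K, h0, hK⟩ := t814 h.wb h.wf (v₁ := fun _ => 0) (v₂ := fun _ => 0)
    (fun i => oo_zero i) (fun i => oo_zero i)
  exact ⟨K, h0, fun q d zq pk hc V hV hs z hz f f' A k hf =>
    hK ⟨(⟨(q, d), zq, pk, hc⟩, V), hV, hs⟩ z hz f f' A k hf⟩

/-- **The bounds in the core.** -/
theorem wb_pk (n : ℕ) (c : PhC) : ∃ K, 0 ≤ K ∧ ∀ (q : Cst) (d : Pk n), Zq' n q → PkOk q d →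
    q.ph = c → ∀ z ∈ UB q d, WB d.sx d.sy (d.W q) K (d.E q z) (√(d.r2 z)) (d.N q z) z := by
  have h := rzB n c
  have s2 : ∀ {x y : ℝ}, |x - y| ≤ rd0 n → |y| ≤ 1 → |x| ≤ 2 := by
    intro x y h1 h2
    have h3 : rd0 n ≤ 1 := by
      unfold rd0
      rw [div_le_one (by positivity)]
      have : (0 : ℝ) ≤ n := Nat.cast_nonneg n
      linarith
    have h4 := abs_sub_abs_le_abs_sub x y
    linarith
  have one : ∀ i j : Fin n, |(1 : Matrix (Fin n) (Fin n) ℝ) i j| ≤ 1 := by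
    intro i j
    rw [Matrix.one_apply]
    split_ifs <;> simp
  obtain ⟨K, h0, hK⟩ := h.wb.w516 (r := fun a z => √(a.1.2.r2 z))
    (fun a z _ => Real.exp_pos _) (fun a z _ => Real.sqrt_nonneg _)
    (fun a z hz => Real.sqrt_le_one.2 hz.1.1.le)
    (fun a z _ => by
      have hE : 0 < a.1.2.E a.1.1 z := Real.exp_pos _
      field_simp)
    (fun a z _ i j => s2 (h.ts.c1 a z.1 i j) (one i j))
    (fun a z _ i j => s2 (h.ts.c2 a z.2 i j) (one i j))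
  exact ⟨K, h0, fun q d zq pk hc z hz => hK ⟨(q, d), zq, pk, hc⟩ z hz⟩

/-- The constant of `kb_pk`. -/
def Kkb (n : ℕ) (c : PhC) : ℝ := (kb_pk n c).choose

/-- The constant of `t8_pk`. -/
def Kt8 (n : ℕ) (c : PhC) : ℝ := (t8_pk n c).choose

/-- The constant of `wb_pk`. -/
def Kwb (n : ℕ) (c : PhC) : ℝ := (wb_pk n c).choose

variable {q : Cst} {d : Pk n} {z : VV n}

theorem Kkb_one (n : ℕ) (c : PhC) : 1 ≤ Kkb n c := (kb_pk n c).choose_spec.1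

theorem Kt8_nn (n : ℕ) (c : PhC) : 0 ≤ Kt8 n c := (t8_pk n c).choose_spec.1

theorem Kwb_nn (n : ℕ) (c : PhC) : 0 ≤ Kwb n c := (wb_pk n c).choose_spec.1

/-- **`Kb` at a point of zone II.** -/
theorem kbP (zq : Zq' n q) (pk : PkOk q d) (hz : z ∈ U2 q d) :
    Kb d.sx d.sy (frx d.s₁) (fry d.s₂) 0 0 (d.W q) (√(d.r2 z)) (d.E q z) (d.N q z)
      (Kkb n q.ph) z := (kb_pk n q.ph).choose_spec.2 q d zq pk rfl z hz

/-- **`T814` at a point of zone II.** -/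
theorem t8P (zq : Zq' n q) (pk : PkOk q d) {V : Set (VV n)} (hV : IsOpen V) (hs : V ⊆ U2 q d)
    (hz : z ∈ V) {f f' : Fin n → VV n → ℝ} {A k : ℝ}
    (hf : Fb d.sx d.sy V f f' (d.E q z) (√(d.r2 z)) A (d.N q z + k) z) :
    T814 d.sx d.sy 0 0 (d.W q) f f' (frx d.s₁) (fry d.s₂) (Kt8 n q.ph) A (d.E q z) (d.N q z)
      (√(d.r2 z)) k z := (t8_pk n q.ph).choose_spec.2 q d zq pk rfl V hV hs z hz f f' A k hf

/-- **`WB` at a point of the core.** -/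
theorem wbP (zq : Zq' n q) (pk : PkOk q d) (hz : z ∈ UB q d) :
    WB d.sx d.sy (d.W q) (Kwb n q.ph) (d.E q z) (√(d.r2 z)) (d.N q z) z :=
  (wb_pk n q.ph).choose_spec.2 q d zq pk rfl z hz

theorem nb_Kkb (n : ℕ) : NB_ηc fun q => Kkb n q.ph := fun _ => rfl

theorem nb_Kt8 (n : ℕ) : NB_ηc fun q => Kt8 n q.ph := fun _ => rfl

theorem nb_Kwb (n : ℕ) : NB_ηc fun q => Kwb n q.ph := fun _ => rfl

end Vale.Agent.P088.R2.H814.An
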