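import Vale.Agent.P088.R2.H814.B2.Pz5
import Vale.Agent.P088.R2.H942.Pk.Al

/-!
# P088, zone II: the points of `z2a`, `z2b` lie in the region of the bounds
-/

open Set Filter
open scoped ContDiff Topology Matrix

noncomputable section

namespace Vale.Agent.P088.R2.H814.An

open Vale.Agent.P088.LR Vale.Agent.P088.HY Vale.Agent.P088.R2.H31.EP
open Vale.Agent.P088.R2.H942.Pk (Al al lm_ev nm_ev)
open Vale.Agent.P088.R2.H606.EP (Nm Lm Loc le_uta N_rev N_pos N_ge uth_ta l0_ge' l0_le')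

variable {n : ℕ} {q : Cst} {d : Pk n} {z : VV n}

/-- `le_uta`, strict. -/
theorem lt_uta (h : PkOk q d) (m : H606.EP.Nm q) {u : ℝ} (hu : u ≤ d.utb q)
    (hN : deriv d.Φ u ≤ q.aC * Real.exp u) : u < d.uta q := by
  refine lt_of_le_of_ne (le_uta h m hu hN) ?_
  rintro rfl
  have l0 := l0_ge' h m
  have l1 := l0_le' h m
  have hR := m.R1
  have hR2 := m.R2
  have hM := m.M1
  have a1 := m.a1
  have e1 : deriv d.Φ (d.uta q) = deriv d.Φ (d.uth q) * Real.exp (2 * (d.uta q - d.uth q)) :=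
    N_rev h m (uth_ta h m) le_rfl
  have e2 : 4 ≤ deriv d.Φ (d.uth q) := by linarith [N_ge h (d.uth q)]
  have e3 : Real.exp (d.uta q) ≤ Real.exp (2 * (d.uta q - d.uth q)) := by
    rw [Real.exp_le_exp]
    unfold Pk.uta Pk.uth
    linarith
  have h5 := Real.exp_pos (d.uta q)
  have h6 : q.aC * Real.exp (d.uta q) ≤ 1 * Real.exp (d.uta q) :=
    mul_le_mul_of_nonneg_right a1 h5.le
  have h7 : 4 * Real.exp (2 * (d.uta q - d.uth q)) ≤ deriv d.Φ (d.uta q) := by
    rw [e1]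
    exact mul_le_mul_of_nonneg_right e2 (Real.exp_pos _).le
  linarith

/-- **The points of `z2a`, `z2b` lie in `U2`.** -/
theorem al_U2 (hn : 1 ≤ n) : EvC fun q => ∀ d : Pk n, PkOk q d → ∀ z, Al q d z →
    z ∈ U2 q d := by
  refine (lm_ev hn).mono fun q m d h z a => ?_
  have hE : 0 < d.E q z := Real.exp_pos _
  have hN : 0 < d.N q z := by
    have := m.M1
    linarith [a.N0]
  have r0 := a.r0
  have hs : 0 < √(d.r2 z) := Real.sqrt_pos.2 r0
  have hq : √(d.r2 z) ^ 2 = d.r2 z := Real.sq_sqrt r0.le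
  refine ⟨⟨?_, lt_uta h m.toNm (a.ut.trans ?_) a.NE⟩, ?_⟩
  · have h1 := m.c1
    have h2 := m.c0
    nlinarith [a.rc]
  · unfold Pk.uta Pk.utb
    linarith [m.R1]
  · have e1 : d.m q z = d.E q z * d.r2 z := rfl
    have h3 : (64 * d.N q z) ^ 2 ≤ (d.E q z * √(d.r2 z)) ^ 2 := by
      rw [mul_pow, mul_pow, hq]
      calc 64 ^ 2 * d.N q z ^ 2 = 4096 * d.N q z ^ 2 := by norm_num
        _ ≤ d.E q z * d.m q z := a.NN
        _ = _ := by rw [e1]; ring
    have h4 := abs_le_of_sq_le_sq' h3 (mul_nonneg hE.le hs.le)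
    linarith [h4.2]

/-- **The points of `z2a`, `z2b` lie in `U2`.** -/
theorem z2_U2 (hn : 1 ≤ n) : EvC fun q => ∀ d : Pk n, PkOk q d → ∀ z,
    d.ch q .z2a z ≠ 0 ∨ d.ch q .z2b z ≠ 0 → Al q d z ∧ z ∈ U2 q d :=
  ((al hn).and (al_U2 hn)).mono fun _ h d pk z hz =>
    ⟨h.1 d pk z hz, h.2 d pk z (h.1 d pk z hz)⟩

/-- **The support of the cut-offs of `z2a`, `z2b`.** -/
theorem z2_ts (hn : 1 ≤ n) : EvC fun q => ∀ d : Pk n, PkOk q d → ∀ z,
    z ∈ tsupport (d.ch q .z2a) ∨ z ∈ tsupport (d.ch q .z2b) → Al q d z ∧ z ∈ U2 q d := by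
  refine (((al hn).and (al_U2 hn)).and ((lm_ev hn).and (evZq hn))).mono ?_
  rintro q ⟨⟨h1, h2⟩, m, zq⟩ d pk z hz
  have cu := u_cont zq.toZq pk
  have cr := r2_cont zq.toZq pk
  have cN : Continuous (d.N q) := pk.Φ's.continuous.comp cu
  have cE : Continuous (d.E q) := Real.continuous_exp.comp cu
  have cm : Continuous (d.m q) := cE.mul cr
  let T : Set (VV n) := {z | d.r2 z ≤ 4 * q.c₀ ^ 2 ∧ d.N q z ≤ q.aC * d.E q z ∧
    0 ≤ d.u q z ∧ d.u q z ≤ d.uta q ∧ 4096 * d.N q z ^ 2 ≤ d.E q z * d.m q z}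
  have cT : IsClosed T := by
    refine (isClosed_le cr continuous_const).inter ((isClosed_le cN (cE.const_smul q.aC)).inter
      ((isClosed_le continuous_const cu).inter ((isClosed_le cu continuous_const).inter ?_)))
    exact isClosed_le (continuous_const.mul (cN.pow 2)) (cE.mul cm)
  have key : ∀ w, Al q d w → w ∈ T := fun w a => ⟨a.rc, a.NE, a.u0, a.ut, a.NN⟩
  have hT : z ∈ T := by
    rcases hz with hz | hz
    · exact closure_minimal (s := Function.support (d.ch q .z2a)) (fun w hw =>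
        key w (h1 d pk w (Or.inl hw))) cT hz
    · exact closure_minimal (s := Function.support (d.ch q .z2b)) (fun w hw =>
        key w (h1 d pk w (Or.inr hw))) cT hz
  obtain ⟨t1, t2, t3, t4, t5⟩ := hT
  have hE : 0 < d.E q z := Real.exp_pos _
  have hN0 : q.M₀ ≤ d.N q z := N_ge pk _
  have hM := m.M1
  have hm : 0 < d.m q z := by
    by_contra hc
    have h3 := mul_nonpos_of_nonneg_of_nonpos hE.le (not_lt.1 hc)
    have h4 : 0 < d.N q z ^ 2 := by
      have : 0 < d.N q z := by linarith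
      positivity
    linarith
  have hr0 : 0 < d.r2 z := (mul_pos_iff_of_pos_left hE).1 hm
  have hub : d.u q z ≤ d.utb q := by
    refine t4.trans ?_
    unfold Pk.uta Pk.utb
    linarith [m.R1]
  have a : Al q d z := ⟨H606.EP.loc pk m t1 (by linarith) hub, t1, hr0, hN0, t2, t3, t4, t5⟩
  exact ⟨a, h2 d pk z a⟩

end Vale.Agent.P088.R2.H814.An
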