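import Vale.Agent.P088.R2.H814.B2.AlP
import Vale.Agent.P088.R2.H606.EP.Kd

/-!
# P088, zone II: helper606's facts on the closed supports of `z2a`, `z2b`
-/

open Set Filter
open scoped ContDiff Topology Matrix

noncomputable section

namespace Vale.Agent.P088.R2.H814.An

open Vale.Agent.P088.LR Vale.Agent.P088.HY Vale.Agent.P088.R2.H31.EP
open Vale.Agent.P088.R2.H464.Cu
open Vale.Agent.P088.R2.H867.EP (Zo Near)
open Vale.Agent.P088.R2.H606.EP (Zn Z2ab N_pos N_ge N_small m_big pos_m)

variable {n : ℕ} {q : Cst} {d : Pk n} {z : VV n} {a X : ℝ}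

/-- The closed leaves of zone II. -/
def Zts (q : Cst) (d : Pk n) (z : VV n) : Prop :=
  z ∈ tsupport (d.ch q .z2a) ∨ z ∈ tsupport (d.ch q .z2b)

theorem zts_of (hz : H606.EP.Z2 q d z) : Zts q d z :=
  hz.imp (fun h => subset_tsupport _ (Function.mem_support.2 h))
    fun h => subset_tsupport _ (Function.mem_support.2 h)

/-- **helper606's facts on the closed supports.** -/
theorem al_ts (zq : Zq' n q) (h : PkOk q d) (m : Zn n a X q) (hz : Zts q d z) :
    H606.EP.Al a X q d z := by
  have cu := u_cont zq.toZq h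
  have cr := r2_cont zq.toZq h
  have cN : Continuous (d.N q) := h.Φ's.continuous.comp cu
  have cE : Continuous (d.E q) := Real.continuous_exp.comp cu
  have cK : Continuous (d.Kf q) := h.Φ''s.continuous.comp cu
  have cm : Continuous (d.m q) := cE.mul cr
  have cp : Continuous fun z => d.N q z ^ (13 / 5 : ℝ) :=
    cN.rpow_const fun z => Or.inr (by norm_num)
  have hx := d.ξ_is q
  have hc0 : 0 < q.σ / (q.CB * q.R) := div_pos m.σ0 (mul_pos m.CB0 m.R0)
  have cx : Continuous fun z => d.m₁ q (d.u q z) := by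
    have c1 : Continuous fun z => Real.exp (-(26 / 100 * d.u q z)) +
        q.σ / (q.CB * q.R) * d.ξ q (d.u q z) :=
      (Real.continuous_exp.comp (cu.const_smul (26 / 100 : ℝ)).neg).add
        (continuous_const.mul (hx.sm.continuous.comp cu))
    exact c1.inv₀ fun z => (add_pos (Real.exp_pos _) (mul_pos hc0 (hx.pos _))).ne'
  let T : Set (VV n) := {z | d.r2 z ≤ 4 * q.c₀ ^ 2 ∧ d.N q z ≤ q.aC * d.E q z ∧ Z2ab q d z}
  have cT : IsClosed T := by
    refine (isClosed_le cr continuous_const).inter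
      ((isClosed_le cN (cE.const_smul q.aC)).inter (IsClosed.union ?_ ?_))
    · exact (isClosed_le cE (continuous_const.mul cp)).inter
        (isClosed_le (continuous_const.mul cK) cm)
    · exact (isClosed_le cp cE).inter (isClosed_le cx cm)
  have hT : z ∈ T := by
    have key : ∀ w, H606.EP.Z2 q d w → w ∈ T := fun w hw => by
      have A := H606.EP.al h m hw
      exact ⟨A.r4, A.Na, A.ab⟩
    rcases hz with hz | hz
    · exact closure_minimal (s := Function.support (d.ch q .z2a))
        (fun w hw => key w (Or.inl hw)) cT hz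
    · exact closure_minimal (s := Function.support (d.ch q .z2b))
        (fun w hw => key w (Or.inr hw)) cT hz
  obtain ⟨t1, t2, t3⟩ := hT
  have hE : 0 < d.E q z := Real.exp_pos _
  have hM := m.M1
  have hMN : q.M₀ ≤ d.N q z := N_ge h _
  obtain ⟨k, hk, hk0, hts⟩ : ∃ k : Zo, Near k ∧ k ≠ .z0 ∧ z ∈ tsupport (d.ch q k) := by
    rcases hz with h1 | h1
    · exact ⟨.z2a, Or.inr (Or.inr (Or.inl rfl)), by decide, h1⟩
    · exact ⟨.z2b, Or.inr (Or.inr (Or.inr (Or.inr rfl))), by decide, h1⟩
  have hta := m.nr.u_le h hk hts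
  have hu0 : 0 ≤ d.u q z := by
    have h1 : 1 ≤ d.E q z := by
      have := m.a1
      have := m.a0
      nlinarith
    by_contra hc
    have h2 : d.E q z < 1 := by
      unfold Pk.E
      rw [← Real.exp_zero]
      exact Real.exp_lt_exp.2 (not_le.1 hc)
    linarith
  have hm0 := pos_m h m t3
  have hr0 : 0 < d.r2 z := by
    by_contra hc
    have : d.m q z ≤ 0 := mul_nonpos_of_nonneg_of_nonpos hE.le (not_lt.1 hc)
    linarith
  have htb : d.u q z ≤ d.utb q := by
    unfold Pk.uta at hta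
    unfold Pk.utb
    have := m.R0
    linarith
  exact ⟨m.nr.Cds h hk hts, H606.EP.loc h m.toLm t1 (by linarith) htb, t1, hr0, hta, t2, hu0,
    N_small h m hta t2 t3, m_big h m hta t2 t3, t3⟩

/-- **The points of zone II lie in `U2`.** -/
theorem al6_U2 (h : PkOk q d) (m : Zn n a X q) (ha : a < 1) (A : H606.EP.Al a X q d z) :
    z ∈ U2 q d := by
  have hE : 0 < d.E q z := Real.exp_pos _
  have hs : 0 < √(d.r2 z) := Real.sqrt_pos.2 A.r0
  have hq : √(d.r2 z) ^ 2 = d.r2 z := Real.sq_sqrt A.r0.le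
  refine ⟨⟨?_, lt_uta h m.toNm (A.ta.trans ?_) A.Na⟩, ?_⟩
  · have h1 := m.c1
    have h2 := m.c0
    nlinarith [A.r4]
  · unfold Pk.uta Pk.utb
    linarith [m.R1]
  · have e1 : d.m q z = d.E q z * d.r2 z := rfl
    have h3 : d.N q z ^ 2 ≤ (a * (d.E q z * √(d.r2 z))) ^ 2 := by
      rw [mul_pow, mul_pow, hq]
      refine A.NE.trans (le_of_eq ?_)
      rw [e1]; ring
    have h4 := abs_le_of_sq_le_sq' h3 (mul_nonneg m.ap.le (mul_nonneg hE.le hs.le))
    have h5 : a * (d.E q z * √(d.r2 z)) < 1 * (d.E q z * √(d.r2 z)) :=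
      mul_lt_mul_of_pos_right ha (mul_pos hE hs)
    linarith [h4.2]

end Vale.Agent.P088.R2.H814.An
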