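import Vale.Agent.P088.R2.H814.B2.Fm
import Vale.Agent.P088.R2.H814.B2.Wi
import Vale.Agent.P088.R2.H814.B2.Qn
import Vale.Agent.P088.R2.H644.W.SymW
import Vale.Agent.P088.R2.H551.E.Br

/-!
# The structures `Wb`, `Wf` for the near weight on `V × V`
-/

open Set Filter Metric
open scoped ContDiff Topology Matrix

noncomputable section

namespace Vale.Agent.P088.R2.H814.An

open Vale.Agent.P088.LR Vale.Agent.P088.HY
open Vale.Agent.P088.R2.H961.GW Vale.Agent.P088.R2.H644.Sy Vale.Agent.P088.R2.H464.Cu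
open Vale.Agent.P088.R2.H475.Z
open Vale.Agent.P088.R2.H644.Ep (Lx_x Lx_y kx0 ky0)

variable {n k : ℕ} {α : Type*} {U : α → Set (VV n)} {r N u ρ W : α → VV n → ℝ} {Φ : α → ℝ → ℝ}
  {S : ℝ → ℝ} {c : ℝ} {s₁ s₂ : α → MF n}

/-- **The near weight.** -/
theorem wb_of (w : Nw U r N u ρ W Φ S c 3) (t : Ts U r 3 s₁ s₂) :
    Wb (Pd (n := n)) Qd (fun a => sx (s₁ a)) (fun a => sy (s₂ a)) U (fun _ _ => 1) r
      (Nw.eu u) N W where
  sz := w.sz
  Ne := w.Ne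
  pq i := by ext <;> simp [Pd, Qd]
  ok a := H551.E.fx_ok (fun i j => (t.t1 i j).cd a)
    (fun x => Matrix.IsSymm.ext fun i j => (t.y1 a x i j).symm) (w.B.op a)
  ot a := H551.E.fy_ok (fun i j => (t.t2 i j).cd a)
    (fun x => Matrix.IsSymm.ext fun i j => (t.y2 a x i j).symm) (w.B.op a)
  cm a := H551.E.f_cm (fun i j => (t.t1 i j).cd a) (fun i j => (t.t2 i j).cd a) (w.B.op a)
  r1 _ _ := rfl
  r2 _ _ := rfl
  e1 _ _ := rfl
  e2 _ _ := rfl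
  k1 a i z := kx0 (s₁ a) i z
  k2 a i z := ky0 (s₂ a) i z
  l1 a := Lx_x (s₁ a) (U a)
  l2 a := Lx_y (s₂ a) (U a)
  s1 i j := (t.t1 i j).x w.B
  s2 i j := (t.t2 i j).y w.B
  sd i j := (t.cl i j).ad (k := 1) w.B t.xy
  Ws := w.Ws
  Wq := w.Wq
  Wp := w.Wp

/-- The frames. -/
def fr1 (s₁ : α → MF n) (a : α) (b i : Fin n) : VV n → ℝ := frx (s₁ a) b i

/-- The frames. -/
def fr2 (s₂ : α → MF n) (a : α) (b i : Fin n) : VV n → ℝ := fry (s₂ a) b i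

theorem rt_sq {T : Matrix (Fin n) (Fin n) ℝ} (h : Gd T) (i j : Fin n) :
    ∑ b, rt T b i * rt T b j = T i j := by
  have h1 := (rt_is h).2.1
  have h2 := congrFun (congrFun h1 i) j
  rw [Matrix.mul_apply] at h2
  rw [← h2]
  exact Finset.sum_congr rfl fun b _ => by rw [(rt_is h).1 b i]

/-- **The frames.** -/
theorem wf_fr (B : Bs U r) (t : Ts U r 3 s₁ s₂) :
    Wf (Pd (n := n)) Qd (fun a => sx (s₁ a)) (fun a => sy (s₂ a)) U r (fr1 s₁) (fr2 s₂) where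
  fp a z _ i j := rt_sq (t.gd1 a z.1) i j
  fq a z _ i j := rt_sq (t.gd2 a z.2) i j
  ap b i := ((t.rcl B.r0 b i).f1.x B).mono_k (by norm_num)
  aq b i := ((t.rcl B.r0 b i).g1.y B).mono_k (by norm_num)
  ad b i := (t.rcl (k := 2) B.r0 b i).ad (k := 1) B t.xy
  p0 a z _ b i j := H551.E.fy_fst ((t.rcl B.r0 b i).f1.cd a) j z
  q0 a z _ b i j := H551.E.fx_snd ((t.rcl B.r0 b i).g1.cd a) j z

end Vale.Agent.P088.R2.H814.An
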