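import Vale.Agent.P088.R2.H814.B2.KpQ
import Vale.Agent.P088.R2.H870.Z2.Lit
import Vale.Agent.P088.R2.H475.Z.MbE
import Vale.Agent.P088.R2.H606.EP.W1p
import Vale.Agent.P088.R2.H238.Z.KeP

/-!
# P088, zone II: `KP` and `KZ2` for the literal functions, no hypotheses left
-/

open Set Filter
open scoped ContDiff Topology Matrix

noncomputable section

namespace Vale.Agent.P088.R2.H814.An

open Vale.Agent.P088.LR Vale.Agent.P088.R2.H31.EP
open Vale.Agent.P088.HY hiding dd dd_comm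
open Vale.Agent.P088.R2.H961.GW Vale.Agent.P088.R2.H464.Cu
open Vale.Agent.P088.R2.H475.Z (frx fry gII zeII ze_of lam_eq lam_le zeII_sq)
open Vale.Agent.P088.R2.H606.EP (Zn)
open Vale.Agent.P088.R2.H814.B2 (KP KZ Fr gg fD)
open Vale.Agent.P088.R2.H870.Z2 (MB W1 KZ2 cKZ kz2_of gz ez zz Zz)
open Vale.Agent.P088.R2.H942.Pk (kz kE)
open Vale.Agent.P088.R2.H867.EP (Zo)
open Vale.Agent.P088.R2.H867.Z (sq1 sqp sq1_nn sqp_nn dx_le dy_le)

variable {n : ℕ} {q : Cst} {d : Pk n} {z : VV n} {a X : ℝ} {c : PhC}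

section mono

variable {E ι α : Type*} [NormedAddCommGroup E] [NormedSpace ℝ E] [Fintype ι] [Fintype α]
  {σ τ : Sl E ι} {p p' : α → ι → E → ℝ} {A B En N r : ℝ} {z : E} {W : E → ℝ}

theorem mb_mono (h : MB σ τ p p' A r z) (hr : 0 ≤ r) (hA : A ≤ B) : MB σ τ p p' B r z :=
  ⟨h.f₁, h.f₂, fun a i => (h.df a i).trans (mul_le_mul_of_nonneg_right hA hr)⟩

theorem w1_mono (h : W1 σ τ W A En N r z) (hA0 : 0 < A) (hr : 0 ≤ r) (hE : 0 ≤ En) (hN : 0 ≤ N)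
    (hA : A ≤ B) : W1 σ τ W B En N r z := by
  have h1 : A * (En * r) ≤ B * (En * r) := mul_le_mul_of_nonneg_right hA (by positivity)
  have f : ∀ F : ℝ, (En * r) ^ 2 ≤ A * F → (En * r) ^ 2 ≤ B * F := fun F hF => by
    have hF0 : 0 ≤ F := by
      have : 0 ≤ A * F := (sq_nonneg _).trans hF
      exact nonneg_of_mul_nonneg_right this hA0
    exact hF.trans (mul_le_mul_of_nonneg_right hA hF0)
  exact ⟨fun i => (h.x i).trans h1, fun i => (h.y i).trans h1,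
    fun i => (h.s i).trans (mul_le_mul_of_nonneg_right hA (by positivity)), f _ h.F₁, f _ h.F₂⟩

end mono

theorem W_smP (pk : PkOk q d) (hg : ∀ i j, ContDiff ℝ ∞ fun x => gi d.s₁ x i j) :
    ContDiff ℝ ∞ (d.W q) := WT_smooth pk.ok pk.Θs pk.ret.sm pk.l_sm hg

theorem A2_pos (n : ℕ) : 0 < H606.EP.A2 n := by
  have hB := (H606.EP.Bn_ge n).1
  have h1 : (0 : ℝ) ≤ H606.EP.Bn n := by linarith
  have h2 := H606.Z.cW_nonneg n h1
  unfold H606.EP.A2 H606.Z.c1W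
  positivity

/-- The constant of `MB` and `W1`. -/
def AK (n : ℕ) : ℝ := max 2 (H606.EP.A2 n)

theorem AK_two (n : ℕ) : 2 ≤ AK n := le_max_left _ _

/-- The number `a` of `KP`. -/
def aK (n : ℕ) (A : ℝ) : ℝ := min (H606.EP.aN n) (aL n A)

/-- **`KP` in zone II for the literal functions.** -/
theorem kp_lit (hn : 1 ≤ n) {A : ℝ} {L η η' : Cst → ℝ} (hA : AK n ≤ A) (hL : ∀ q, 8 * A ≤ L q)
    (hη : ∀ q, 0 < η q) (hη' : ∀ q, 0 < η' q) (nL : NB_CB L) (nη : NB_CB η) (nη' : NB_CB η') :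
    EvC fun q => ∀ d : Pk n, PkOk q d → ∀ z, d.ch q .z2a z ≠ 0 ∨ d.ch q .z2b z ≠ 0 →
      KP d.sx d.sy (frx d.s₁) (fry d.s₂) (fun _ => 0) (fun _ => 0) (d.W q) (zz (L q) q d)
        (kz q d) (ez q d) (η' q) (η q) z := by
  have hA2 : 2 ≤ A := (AK_two n).trans hA
  have nX := nb_XL n A nL nη nη'
  have X1 : ∀ q, 1 ≤ XL n A L η η' q := fun q => le_max_left _ _
  have a0 : 0 < aL n A := aL_pos n (by linarith)
  refine (((kp_pk hn (X := XL n A L η η') hA2 a0 le_rfl hL hη hη' (NB_CB.M₀ nX)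
    fun q => le_rfl).and (H238.Z.ke hn _ nX)).and ((H606.EP.evZn hn (H606.EP.aN_b hn).1
    (XL n A L η η') (NB_CB.M₀ nX) X1).and (H475.Z.evMn n))).mono ?_
  rintro q ⟨⟨h1, h2⟩, m, mn⟩ d pk z hz
  have al := H606.EP.al pk m hz
  have hW : Sm univ (d.W q) := (W_smP pk (m.nr.sm d pk).g).contDiffOn
  have F := H475.Z.frU pk m.toLm (isOpen_univ (X := VV n))
  have hr := Real.sqrt_nonneg (d.r2 z)
  have mb := mb_mono (H475.Z.mb_al pk m al mn) hr (by linarith : (1 : ℝ) ≤ A)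
  have w1 := w1_mono (H606.EP.w1_pk pk m al) ?_ hr (Real.exp_pos _).le
    (H606.EP.N_pos pk m.toNm _).le ((le_max_right _ _).trans hA)
  · refine h1 d pk z (zts_of hz) univ (fun _ => 1) (kz q d) (ez q d) F hW (mem_univ _) mb w1
      (h2 d pk z hz).1 ?_ ?_
    · unfold ez; nlinarith [sq_nonneg (d.E q z)]
    · unfold ez; nlinarith [sq_nonneg (d.E q z)]
  · exact A2_pos n

/-- **`KZ2` at a point of zone II.** -/
theorem kz2P {L K₂ : ℝ} {χ ee k : VV n → ℝ} (zq : Zq' n q) (pk : PkOk q d)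
    (m : Zn n a X q) (ha : a < 1) (al : H606.EP.Al a X q d z) (hL : 0 < L)
    (hK : cKZ n n (Kkb n q.ph) (4 * L) ≤ K₂) (hk : 0 < k z) (hkm : k z ≤ d.m q z)
    (e1 : 2 * d.E q z ^ 2 ≤ ee z) :
    KZ2 d.sx d.sy (frx d.s₁) (fry d.s₂) (d.W q) χ (zeII L (d.u q) d.r2) ee
      (H867.Z.Zc K₂ 1 (rq (gi d.s₁)) (d.E q) (d.N q) k χ) z := by
  have z2 := al6_U2 pk m ha al
  have r0 := al.r0
  have s0 : 0 < √(d.r2 z) := Real.sqrt_pos.2 r0
  have hr : √(d.r2 z) ^ 2 = d.r2 z := Real.sq_sqrt r0.le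
  have hE : 0 < d.E q z := Real.exp_pos _
  have hm1 : 1 ≤ d.m q z := m.X0.trans al.mX
  have hm : 0 < d.m q z := by linarith
  have em : d.E q z * √(d.r2 z) ^ 2 = d.m q z := by rw [hr]; rfl
  have hs := sq1_nn χ z
  have d0 : 0 ≤ d.r2 z * sq1 χ z := mul_nonneg r0.le hs
  obtain ⟨D, hD⟩ : ∃ D, D = √(d.r2 z * sq1 χ z) := ⟨_, rfl⟩
  have hD0 : 0 ≤ D := hD ▸ Real.sqrt_nonneg _
  have hD2 : D ^ 2 = d.r2 z * sq1 χ z := by rw [hD]; exact Real.sq_sqrt d0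
  have e0 : D / √(d.r2 z) = √(sq1 χ z) := by
    rw [hD, Real.sqrt_mul r0.le]
    field_simp
  have K1 := Kkb_one n q.ph
  have c0 : 0 ≤ cKZ n n (Kkb n q.ph) (4 * L) := by unfold cKZ; positivity
  have K20 : 0 ≤ K₂ := c0.trans hK
  have hZ := zc_ge (q := q) (d := d) (χ := χ) K20 r0.le (H606.EP.N_pos pk m.toNm _).le hk hkm
  rw [← hD2] at hZ
  have hZ0 : 0 ≤ H867.Z.Zc K₂ 1 (rq (gi d.s₁)) (d.E q) (d.N q) k χ z :=
    le_trans (by positivity) hZ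
  refine kz2_of (K := Kkb n q.ph) (Λ := 4 * L) (kbP zq pk z2) s0 hE K1 rfl
    (lam_le hL.le r0.le hr.symm) hD0 ?_ ?_ e1 hZ0 ?_
  · intro i
    rw [e0, sxD]
    exact dx_le χ z i
  · intro i
    rw [e0, syD]
    exact dy_le χ z i
  · rw [em, Fintype.card_fin]
    have h1 : K₂ * D ^ 2 ≤ d.m q z * H867.Z.Zc K₂ 1 (rq (gi d.s₁)) (d.E q) (d.N q) k χ z := by
      have h1 := mul_le_mul_of_nonneg_left hZ hm.le
      refine le_trans (le_of_eq ?_) h1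
      field_simp
    have h2 := mul_le_mul_of_nonneg_right hK (sq_nonneg D)
    have h3 : d.m q z * H867.Z.Zc K₂ 1 (rq (gi d.s₁)) (d.E q) (d.N q) k χ z ≤
        H867.Z.Zc K₂ 1 (rq (gi d.s₁)) (d.E q) (d.N q) k χ z * d.m q z ^ 2 := by
      have : d.m q z ≤ d.m q z ^ 2 := by nlinarith
      nlinarith
    linarith

/-- **`KZ2` in zone II for the literal functions**, every cut-off `χ`. -/
theorem kz2_lit (hn : 1 ≤ n) {L K : Cst → ℝ} (hL : ∀ q, 0 < L q)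
    (hK : ∀ q, cKZ n n (Kkb n q.ph) (4 * L q) ≤ K q) :
    EvC fun q => ∀ d : Pk n, PkOk q d → ∀ z, d.ch q .z2a z ≠ 0 ∨ d.ch q .z2b z ≠ 0 →
      ∀ χ : VV n → ℝ, KZ2 d.sx d.sy (frx d.s₁) (fry d.s₂) (d.W q) χ (zz (L q) q d) (ez q d)
        (H867.Z.Zc (K q) 1 (rq (gi d.s₁)) (d.E q) (d.N q) (kz q d) χ) z := by
  refine (((evZq hn).and (H606.EP.evZn hn (a := 1 / 2) (by norm_num) (fun _ => 1)
    (fun _ => rfl) fun _ => le_rfl)).and (H238.Z.ke hn (fun _ => 1) fun _ => rfl)).mono ?_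
  rintro q ⟨⟨zq, m⟩, h2⟩ d pk z hz χ
  have al := H606.EP.al pk m hz
  obtain ⟨k1, k2⟩ := h2 d pk z hz
  have k0 : 0 < kz q d z := by
    refine lt_of_lt_of_le ?_ k1
    have : 0 ≤ d.N q z ^ 2 / d.m q z ^ 2 := by positivity
    linarith
  exact kz2P zq pk m (by norm_num) al (hL q) (hK q) k0 k2
    (by unfold ez; nlinarith [sq_nonneg (d.E q z)])

end Vale.Agent.P088.R2.H814.An
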