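import Vale.Agent.P088.R2.H814.B2.ZeP
import Vale.Agent.P088.R2.H86.Z.Kp0

/-!
# P088, zone II: `KP` and `KZ` on the package
-/

open Set Filter
open scoped ContDiff Topology Matrix

noncomputable section

namespace Vale.Agent.P088.R2.H814.An

open Vale.Agent.P088.LR Vale.Agent.P088.R2.H31.EP
open Vale.Agent.P088.HY hiding dd dd_comm
open Vale.Agent.P088.R2.H961.GW Vale.Agent.P088.R2.H464.Cu
open Vale.Agent.P088.R2.H475.Z (frx fry gII zeII ze_of lam_eq lam_le zeII_sq)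
open Vale.Agent.P088.R2.H606.EP (Zn)
open Vale.Agent.P088.R2.H814.B2 (KP KZ Fr gg fD)
open Vale.Agent.P088.R2.H870.Z2 (MB W1)
open Vale.Agent.P088.R2.H86.Z (Kn kX kz_num low_of)
open Vale.Agent.P088.R2.H867.Z (sq1 sqp Zc sq1_nn dx_le dy_le)

variable {n : ℕ} {q : Cst} {d : Pk n} {z : VV n} {a X : ℝ} {c : PhC}

/-- The diagonal entries of the tensor. -/
theorem s_diag (zq : Zq' n q) (pk : PkOk q d) (i : Fin n) : d.sx.s i i z ≤ 2 := by
  have h := (rz2 n q.ph).ts.c1 ⟨(q, d), zq, pk, rfl⟩ z.1 i i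
  have h3 : rd0 n ≤ 1 := by
    unfold rd0
    rw [div_le_one (by positivity)]
    have : (0 : ℝ) ≤ n := Nat.cast_nonneg n
    linarith
  rw [Matrix.one_apply_eq] at h
  have h4 := (abs_le.1 h).2
  have e : d.sx.s i i z = d.s₁ z.1 i i := rfl
  rw [e]
  have h5 : d.s₁ z.1 i i - 1 ≤ rd0 n := h4
  linarith

/-- **The numbers of `KP` at a point of zone II.** -/
theorem knP {A L : ℝ} {k ee : VV n → ℝ} (m : Zn n a X q) (al : H606.EP.Al a X q d z) (h : PkOk q d)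
    (w1 : W1 d.sx d.sy (d.W q) A (d.E q z) (d.N q z) (√(d.r2 z)) z) (hA : 1 ≤ A)
    (hL : 8 * A ≤ L) (ke : X * (1 + d.N q z ^ 2 / d.m q z ^ 2) ≤ k z)
    (e1 : 2 * d.E q z ^ 2 ≤ ee z) (e2 : ee z ≤ 4 * d.E q z ^ 2) :
    Kn d.sx d.sy (d.W q) k ee (√(d.r2 z)) (d.E q z) (d.N q z) L X A
      (zeII L (d.u q) d.r2 z ^ 2 * √(d.r2 z) ^ 2) z := by
  have r0 := al.r0
  have hr : √(d.r2 z) ^ 2 = d.r2 z := Real.sq_sqrt r0.le
  have em : d.E q z * √(d.r2 z) ^ 2 = d.m q z := by rw [hr]; rfl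
  have L0 : 0 ≤ L := by linarith
  have mX : X ≤ d.E q z * √(d.r2 z) ^ 2 := by rw [em]; exact al.mX
  have hm1 : 1 ≤ d.m q z := m.X0.trans al.mX
  refine ⟨Real.sqrt_pos.2 r0, ?_, Real.exp_pos _, (H606.EP.N_pos h m.toNm _).le, L0, m.X0, mX, ?_,
    by linarith, w1.F₁, w1.F₂, e1, e2, ?_, ?_, hL⟩
  · refine Real.sqrt_le_one.2 ?_
    have h1 := m.c1
    have h2 := m.c0
    nlinarith [al.r4]
  · rw [em]; exact ke
  · rw [lam_eq L0 r0.le hr.symm]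
    have e3 : Real.exp (d.u q z) * d.r2 z = d.m q z := rfl
    rw [e3]
    have h1 : 1 / 2 ≤ d.m q z / (1 + d.m q z) := by
      rw [le_div_iff₀ (by linarith)]; linarith
    nlinarith
  · exact lam_le L0 r0.le hr.symm

/-- **`KP` at a point of zone II.** -/
theorem kpP {A L η η' : ℝ} {U : Set (VV n)} {θ k ee : VV n → ℝ} (zq : Zq' n q) (pk : PkOk q d)
    (m : Zn n a X q) (ha : a < 1) (al : H606.EP.Al a X q d z)
    (F : Fr d.sx d.sy (frx d.s₁) (fry d.s₂) U θ) (hW : Sm U (d.W q)) (hz : z ∈ U)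
    (mb : MB d.sx d.sy (frx d.s₁) (fry d.s₂) A (√(d.r2 z)) z)
    (w1 : W1 d.sx d.sy (d.W q) A (d.E q z) (d.N q z) (√(d.r2 z)) z) (hA : 2 ≤ A)
    (hc : (n : ℝ) * (n * (4 * A ^ 2)) ^ 2 * A * a ^ 2 ≤ 1) (hL : 8 * A ≤ L) (hη : 0 < η)
    (hη' : 0 < η') (hX : kX n n (Kkb n q.ph) (Kze n q.ph) A L η η' ≤ X)
    (ke : X * (1 + d.N q z ^ 2 / d.m q z ^ 2) ≤ k z)
    (e1 : 2 * d.E q z ^ 2 ≤ ee z) (e2 : ee z ≤ 4 * d.E q z ^ 2) :
    KP d.sx d.sy (frx d.s₁) (fry d.s₂) 0 0 (d.W q) (zeII L (d.u q) d.r2) k ee η' η z := by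
  have z2 := al6_U2 pk m ha al
  have r0 := al.r0
  have s0 : 0 < √(d.r2 z) := Real.sqrt_pos.2 r0
  have hr : √(d.r2 z) ^ 2 = d.r2 z := Real.sq_sqrt r0.le
  have hE : 0 < d.E q z := Real.exp_pos _
  have hN := H606.EP.N_pos pk m.toNm (d.u q z)
  have hra : √(d.r2 z) ≤ a := by
    refine (abs_le_of_sq_le_sq' ?_ m.ap.le).2
    rw [hr]
    have h1 := m.c0
    have h2 := m.c2
    nlinarith [al.r4]
  have hNa : d.N q z ≤ a * (d.E q z * √(d.r2 z)) := by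
    refine (abs_le_of_sq_le_sq' ?_ (mul_nonneg m.ap.le (mul_nonneg hE.le s0.le))).2
    rw [mul_pow, mul_pow, hr]
    refine al.NE.trans (le_of_eq ?_)
    have e1 : d.m q z = d.E q z * d.r2 z := rfl
    rw [e1]; ring
  have low := low_of mb w1 (by linarith) hE.le s0.le hN.le
    (fun i => (s_diag zq pk i).trans (by nlinarith)) m.ap.le hra hNa (by simpa using hc)
  have kn := knP (k := k) (ee := ee) m al pk w1 (by linarith) hL ke e1 e2
  have ze := zeP zq pk (fun z => (m.nr.rb d pk z).1) F.ok.op hz z2 (L := L) (by linarith)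
  exact kn.kp (kbP zq pk z2) F hW hz (Kkb_one n q.ph) (Kze_nn n q.ph) ze low hη hη'
    (by simpa using hX)

/-! ### `KZ` -/

/-- The constant of the cost. -/
def kK2 (n K L δ : ℝ) : ℝ :=
  1280 * (n * n ^ 2 * K ^ 2) * L + (16 * (n * n * K ^ 2) * L) ^ 2 / δ

/-- **`KZ` at a point of zone II.** -/
theorem kzP {L δ : ℝ} {χ ee Z : VV n → ℝ} (zq : Zq' n q) (pk : PkOk q d)
    (m : Zn n a X q) (ha : a < 1) (al : H606.EP.Al a X q d z) (hL : 0 < L) (hδ : 0 < δ)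
    (e1 : 2 * d.E q z ^ 2 ≤ ee z)
    (hZ : kK2 n (Kkb n q.ph) L δ * (d.r2 z * sq1 χ z / d.m q z) + δ * χ z ^ 2 ≤ Z z) :
    KZ d.sx d.sy (frx d.s₁) (fry d.s₂) (d.W q) χ (zeII L (d.u q) d.r2) ee Z z := by
  have z2 := al6_U2 pk m ha al
  have r0 := al.r0
  have s0 : 0 < √(d.r2 z) := Real.sqrt_pos.2 r0
  have hr : √(d.r2 z) ^ 2 = d.r2 z := Real.sq_sqrt r0.le
  have hE : 0 < d.E q z := Real.exp_pos _
  have hm1 : 1 ≤ d.m q z := m.X0.trans al.mX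
  have hm : 0 < d.m q z := by linarith
  have em : d.E q z * √(d.r2 z) ^ 2 = d.m q z := by rw [hr]; rfl
  have hs := sq1_nn χ z
  have d0 : 0 ≤ d.r2 z * sq1 χ z := mul_nonneg r0.le hs
  obtain ⟨D, hD⟩ : ∃ D, D = √(d.r2 z * sq1 χ z) := ⟨_, rfl⟩
  have hD0 : 0 ≤ D := hD ▸ Real.sqrt_nonneg _
  have hD2 : D ^ 2 = d.r2 z * sq1 χ z := by rw [hD]; exact Real.sq_sqrt d0
  have e0 : D / √(d.r2 z) = √(sq1 χ z) := by
    rw [hD, Real.sqrt_mul r0.le]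
    field_simp
  have K1 := Kkb_one n q.ph
  have K2 : 0 ≤ kK2 n (Kkb n q.ph) L δ := by unfold kK2; positivity
  have hZ0 : 0 ≤ Z z := by
    refine le_trans ?_ hZ
    positivity
  rw [← hD2] at hZ
  have hmZ : kK2 n (Kkb n q.ph) L δ * D ^ 2 + δ * χ z ^ 2 * d.m q z ≤ d.m q z * Z z := by
    have h1 := mul_le_mul_of_nonneg_left hZ hm.le
    refine le_trans (le_of_eq ?_) h1
    field_simp
  have hn0 : (0 : ℝ) ≤ n := Nat.cast_nonneg n
  refine kz_num (K := Kkb n q.ph) (L := L) (kbP zq pk z2) s0 hE K1 hL.le rfl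
    (lam_le hL.le r0.le hr.symm) e1 hZ0 hD0 ?_ ?_ ?_ ?_
  · intro i
    rw [e0, sxD]
    exact dx_le χ z i
  · intro i
    rw [e0, syD]
    exact dy_le χ z i
  · rw [em, Fintype.card_fin]
    refine le_trans ?_ hmZ
    obtain ⟨c, hc⟩ : ∃ c, c = 16 * ((n : ℝ) * n * Kkb n q.ph ^ 2) * L := ⟨_, rfl⟩
    have c0 : 0 ≤ c := by rw [hc]; positivity
    have h1 : c ^ 2 / δ * D ^ 2 ≤ kK2 n (Kkb n q.ph) L δ * D ^ 2 := by
      refine mul_le_mul_of_nonneg_right ?_ (sq_nonneg _)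
      unfold kK2
      rw [hc]
      have : 0 ≤ 1280 * ((n : ℝ) * n ^ 2 * Kkb n q.ph ^ 2) * L := by positivity
      linarith
    have h2 : δ * χ z ^ 2 * 1 ≤ δ * χ z ^ 2 * d.m q z :=
      mul_le_mul_of_nonneg_left hm1 (by positivity)
    have h3 : 2 * c * (|χ z| * D) ≤ c ^ 2 / δ * D ^ 2 + δ * χ z ^ 2 := by
      have h4 : 0 ≤ (c * D - δ * |χ z|) ^ 2 / δ := div_nonneg (sq_nonneg _) hδ.le
      have h5 : (c * D - δ * |χ z|) ^ 2 / δ =
          c ^ 2 / δ * D ^ 2 + δ * |χ z| ^ 2 - 2 * c * (|χ z| * D) := by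
        field_simp
        ring
      rw [h5, sq_abs] at h4
      linarith
    have h6 : 32 * ((n : ℝ) * n * Kkb n q.ph ^ 2) * L * (|χ z| * D) = 2 * c * (|χ z| * D) := by
      rw [hc]; ring
    rw [h6]
    linarith
  · rw [em, Fintype.card_fin]
    have h1 : 1280 * ((n : ℝ) * n ^ 2 * Kkb n q.ph ^ 2) * L * D ^ 2 ≤
        kK2 n (Kkb n q.ph) L δ * D ^ 2 := by
      refine mul_le_mul_of_nonneg_right ?_ (sq_nonneg _)
      unfold kK2
      have : 0 ≤ (16 * ((n : ℝ) * n * Kkb n q.ph ^ 2) * L) ^ 2 / δ := by positivity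
      linarith
    have h2 : d.m q z * Z z ≤ d.m q z ^ 2 * Z z := by
      refine mul_le_mul_of_nonneg_right ?_ hZ0
      nlinarith
    have h3 : 0 ≤ δ * χ z ^ 2 * d.m q z := by positivity
    linarith

end Vale.Agent.P088.R2.H814.An
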