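import Vale.Agent.P088.R2.H814.B2.KpP

/-!
# P088, zone II: `KP` and `KZ` on the package, with the order of the constants
-/

open Set Filter
open scoped ContDiff Topology Matrix

noncomputable section

namespace Vale.Agent.P088.R2.H814.An

open Vale.Agent.P088.LR Vale.Agent.P088.R2.H31.EP
open Vale.Agent.P088.HY hiding dd dd_comm
open Vale.Agent.P088.R2.H961.GW Vale.Agent.P088.R2.H464.Cu
open Vale.Agent.P088.R2.H475.Z (frx fry gII zeII ze_of lam_eq lam_le zeII_sq)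
open Vale.Agent.P088.R2.H606.EP (Zn)
open Vale.Agent.P088.R2.H814.B2 (KP KZ Fr gg fD)
open Vale.Agent.P088.R2.H870.Z2 (MB W1)
open Vale.Agent.P088.R2.H86.Z (Kn kX kz_num low_of)
open Vale.Agent.P088.R2.H867.EP (Zo)
open Vale.Agent.P088.R2.H867.Z (sq1 sqp Zc sq1_nn sqp_nn dx_le dy_le)

variable {n : ℕ} {q : Cst} {d : Pk n} {z : VV n} {a X : ℝ} {c : PhC}

/-- The bound for the number `a` (`r ≤ a`, `N ≤ a E r`). -/
def aL (n : ℕ) (A : ℝ) : ℝ := 1 / (n * (n * (4 * A ^ 2)) * A + 1)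

theorem aL_pos (n : ℕ) {A : ℝ} (hA : 0 ≤ A) : 0 < aL n A := by unfold aL; positivity

theorem aL_le (n : ℕ) {A : ℝ} (hA : 0 ≤ A) : aL n A ≤ 1 := by
  unfold aL
  rw [div_le_one (by positivity)]
  have : 0 ≤ (n : ℝ) * (n * (4 * A ^ 2)) * A := by positivity
  linarith

theorem aL_ok {A : ℝ} (hA : 1 ≤ A) (ha0 : 0 ≤ a) (ha : a ≤ aL n A) :
    (n : ℝ) * (n * (4 * A ^ 2)) ^ 2 * A * a ^ 2 ≤ 1 := by
  have hA0 : 0 ≤ A := by linarith
  have hn : (0 : ℝ) ≤ n := Nat.cast_nonneg n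
  obtain ⟨t, ht⟩ : ∃ t, t = (n : ℝ) * (n * (4 * A ^ 2)) * A := ⟨_, rfl⟩
  have t0 : 0 ≤ t := by rw [ht]; positivity
  have h1 : a * (t + 1) ≤ 1 := by
    have h2 : a ≤ 1 / (t + 1) := by rw [ht]; exact ha
    rwa [le_div_iff₀ (by linarith)] at h2
  have h2 : a * t ≤ 1 := by nlinarith
  have h3 : (a * t) ^ 2 ≤ 1 := pow_le_one₀ (mul_nonneg ha0 t0) h2
  have h4 : (n : ℝ) * (n * (4 * A ^ 2)) ^ 2 * A * a ^ 2 ≤ (a * t) ^ 2 := by
    have n2 : (n : ℝ) ≤ (n : ℝ) ^ 2 := by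
      have : n ≤ n ^ 2 := Nat.le_self_pow two_ne_zero n
      exact_mod_cast this
    have A2 : A ≤ A ^ 2 := by nlinarith
    have e : (a * t) ^ 2 = (n : ℝ) ^ 2 * (n * (4 * A ^ 2)) ^ 2 * A ^ 2 * a ^ 2 := by
      rw [ht]; ring
    rw [e]
    gcongr
  exact h4.trans h3

/-- The size of `m` and of the convexity needed for `KP`. -/
def XL (n : ℕ) (A : ℝ) (L η η' : Cst → ℝ) (q : Cst) : ℝ :=
  max 1 (kX n n (Kkb n q.ph) (Kze n q.ph) A (L q) (η q) (η' q))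

theorem nb_XL (n : ℕ) (A : ℝ) {L η η' : Cst → ℝ} (hL : NB_CB L) (hη : NB_CB η)
    (hη' : NB_CB η') : NB_CB (XL n A L η η') := fun q => by
  unfold XL
  rw [hL q, hη q, hη' q]
  rfl

theorem NB_CB.M₀ {f : Cst → ℝ} (h : NB_CB f) : NB_M₀ f := fun q => by
  have h1 := h q
  have h2 := h q.b_M₀
  have e : q.b_M₀.b_CB = q.b_CB := rfl
  rw [← h2, e, h1]

/-- **`KP` in zone II.** -/
theorem kp_pk (hn : 1 ≤ n) {A : ℝ} {L η η' X : Cst → ℝ} (hA : 2 ≤ A) (ha : 0 < a)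
    (ha1 : a ≤ aL n A) (hL : ∀ q, 8 * A ≤ L q) (hη : ∀ q, 0 < η q) (hη' : ∀ q, 0 < η' q)
    (hX : NB_M₀ X) (hX1 : ∀ q, XL n A L η η' q ≤ X q) :
    EvC fun q => ∀ d : Pk n, PkOk q d → ∀ z, Zts q d z → ∀ (U : Set (VV n)) (θ k ee : VV n → ℝ),
      Fr d.sx d.sy (frx d.s₁) (fry d.s₂) U θ → Sm U (d.W q) → z ∈ U →
      MB d.sx d.sy (frx d.s₁) (fry d.s₂) A (√(d.r2 z)) z →
      W1 d.sx d.sy (d.W q) A (d.E q z) (d.N q z) (√(d.r2 z)) z →
      X q * (1 + d.N q z ^ 2 / d.m q z ^ 2) ≤ k z →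
      2 * d.E q z ^ 2 ≤ ee z → ee z ≤ 4 * d.E q z ^ 2 →
      KP d.sx d.sy (frx d.s₁) (fry d.s₂) 0 0 (d.W q) (zeII (L q) (d.u q) d.r2) k ee (η' q)
        (η q) z := by
  have X1 : ∀ q, 1 ≤ X q := fun q => (le_max_left _ _).trans (hX1 q)
  have hA0 : 0 ≤ A := by linarith
  have a1 : a < 1 := by
    refine lt_of_le_of_lt ha1 ?_
    unfold aL
    rw [div_lt_one (by positivity)]
    have : (0 : ℝ) < n := by exact_mod_cast hn
    have : 0 < (n : ℝ) * (n * (4 * A ^ 2)) * A := by positivity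
    linarith
  refine ((evZq hn).and (H606.EP.evZn hn ha X hX X1)).mono ?_
  rintro q ⟨zq, m⟩ d pk z hz U θ k ee F hW hzU mb w1 ke e1 e2
  exact kpP zq pk m a1 (al_ts zq pk m hz) F hW hzU mb w1 hA (aL_ok (by linarith) ha.le ha1)
    (hL q) (hη q) (hη' q) ((le_max_right _ _).trans (hX1 q)) ke e1 e2

theorem zc_ge {K : ℝ} {k χ : VV n → ℝ} (hK : 0 ≤ K) (h0 : 0 ≤ d.r2 z) (hN : 0 ≤ d.N q z)
    (hk : 0 < k z) (hkm : k z ≤ d.m q z) : K * (d.r2 z * sq1 χ z / d.m q z) ≤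
      Zc K 1 (rq (gi d.s₁)) (d.E q) (d.N q) k χ z := by
  have hE : 0 < d.E q z := Real.exp_pos _
  have hs := sq1_nn χ z
  have hp := sqp_nn χ z
  have e : 2 * rq (gi d.s₁) z = d.r2 z := rfl
  unfold H867.Z.Zc
  rw [e, one_mul, ← mul_div_assoc]
  refine div_le_div₀ (mul_nonneg hK (by positivity)) (mul_le_mul_of_nonneg_left ?_ hK) hk hkm
  have h1 : 0 ≤ (d.N q z + k z) / (d.E q z * d.r2 z) := by positivity
  have h2 : 1 ≤ (1 + (d.N q z + k z) / (d.E q z * d.r2 z)) ^ 2 := by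
    nlinarith
  have h3 : 0 ≤ d.r2 z * sq1 χ z := by positivity
  nlinarith

/-- `KZ` where `χ` vanishes near the point. -/
theorem kz_zero {ι β E : Type*} [NormedAddCommGroup E] [NormedSpace ℝ E] [Fintype ι] [Fintype β]
    {σ τ : Sl E ι} {p q : β → ι → E → ℝ} {W χ ζ ee Z : E → ℝ} {z : E}
    (h : χ =ᶠ[𝓝 z] fun _ => 0) (h0 : 0 ≤ Z z * ee z) : KZ σ τ p q W χ ζ ee Z z := by
  have e1 : ∀ (σ : Sl E ι) i, σ.D i χ z = 0 := fun σ i => by
    unfold Sl.D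
    rw [h.fderiv_eq]
    simp
  have e2 : ∀ b, gg σ τ p q b χ z = 0 := fun b => by
    unfold gg fD
    simp [e1]
  constructor
  · simp only [e2, zero_mul, Finset.sum_const_zero, mul_zero, abs_zero]
    positivity
  · simp only [e2, ne_eq, OfNat.ofNat_ne_zero, not_false_eq_true, zero_pow, mul_zero,
      Finset.sum_const_zero]
    positivity

/-- **`KZ` in zone II.** -/
theorem kz_pk (hn : 1 ≤ n) {L δ K₂ : Cst → ℝ} (ha : 0 < a) (ha1 : a < 1) (hL : ∀ q, 0 < L q)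
    (hδ : ∀ q, 0 < δ q) (hK : ∀ q, kK2 n (Kkb n q.ph) (L q) (δ q) ≤ K₂ q) :
    EvC fun q => ∀ d : Pk n, PkOk q d → ∀ j : Zo, j = .z2a ∨ j = .z2b →
      ∀ k ee Z : VV n → ℝ, (∀ z, 0 ≤ Z z) → (∀ z, 2 * d.E q z ^ 2 ≤ ee z) →
      (∀ z, Zts q d z → 0 < k z ∧ k z ≤ d.m q z) →
      (∀ z, Zts q d z → Zc (K₂ q) 1 (rq (gi d.s₁)) (d.E q) (d.N q) k (d.ch q j) z +
        δ q * d.ch q j z ^ 2 ≤ Z z) →
      ∀ z, KZ d.sx d.sy (frx d.s₁) (fry d.s₂) (d.W q) (d.ch q j) (zeII (L q) (d.u q) d.r2)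
        ee Z z := by
  refine ((evZq hn).and (H606.EP.evZn hn ha (fun _ => 1) (fun _ => rfl) fun _ => le_rfl)).mono ?_
  rintro q ⟨zq, m⟩ d pk j hj k ee Z hZ0 he hk hZ z
  by_cases hz : z ∈ tsupport (d.ch q j)
  · have hts : Zts q d z := by
      rcases hj with rfl | rfl
      · exact Or.inl hz
      · exact Or.inr hz
    have al := al_ts zq pk m hts
    have K0 : 0 ≤ kK2 n (Kkb n q.ph) (L q) (δ q) := by
      have := hL q
      have := hδ q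
      unfold kK2
      positivity
    refine kzP zq pk m ha1 al (hL q) (hδ q) (he z) (le_trans ?_ (hZ z hts))
    refine add_le_add ?_ le_rfl
    have h1 := zc_ge (χ := d.ch q j) (K0.trans (hK q)) al.r0.le
      (H606.EP.N_pos pk m.toNm _).le (hk z hts).1 (hk z hts).2
    refine le_trans (mul_le_mul_of_nonneg_right (hK q) ?_) h1
    have h2 := sq1_nn (d.ch q j) z
    have h3 := al.r0
    have h4 : 0 < d.m q z := lt_of_lt_of_le (hk z hts).1 (hk z hts).2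
    positivity
  · refine kz_zero (notMem_tsupport_iff_eventuallyEq.1 hz) (mul_nonneg (hZ0 z) ?_)
    refine le_trans ?_ (he z)
    positivity

theorem nb_kK2 (n : ℕ) {L δ : Cst → ℝ} (hL : NB_ηc L) (hδ : NB_ηc δ) :
    NB_ηc fun q => kK2 n (Kkb n q.ph) (L q) (δ q) := fun q => by
  simp only [hL q, hδ q]
  rfl

end Vale.Agent.P088.R2.H814.An
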