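import Vale.Agent.P088.R2.H932.EP.Pk1
import Vale.Agent.P088.R2.H644.W.Prof3

/-!
# The correction of the level: uniform bounds of all derivatives
-/

open Set Filter
open scoped ContDiff Topology Matrix

noncomputable section

namespace Vale.Agent.P088.R2.H814.An

open Vale.Agent.P088.LR Vale.Agent.P088.HY Vale.Agent.P088.R2.H31.EP
open Vale.Agent.P088.R2.H644.Sy Vale.Agent.P088.R2.H932.EP

variable {n k : ℕ} {α : Type*} {q : α → Cst} {d : α → Pk n}

/-- Functions of one variable. -/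
def T1 (k : ℕ) (f : α → ℝ → ℝ) : Prop :=
  Sf (fun _ => univ) (fun _ _ => 1) (fun _ _ => 1) k f

theorem T1.of {f : α → ℝ → ℝ} (hs : ∀ a, ContDiff ℝ ∞ (f a))
    (h : ∀ j ≤ k, ∃ C, ∀ a t, |iteratedDeriv j (f a) t| ≤ C) : T1 k f where
  sm a := (hs a).contDiffOn
  bd j hj := by
    obtain ⟨C, hC⟩ := h j hj
    refine ⟨C, fun a t _ => ?_⟩
    rw [norm_iteratedFDeriv_eq_norm_iteratedDeriv, Real.norm_eq_abs]
    simpa using hC a t

theorem T1.bd' {f : α → ℝ → ℝ} (h : T1 k f) {j : ℕ} (hj : j ≤ k) :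
    ∃ C, ∀ a t, |iteratedDeriv j (f a) t| ≤ C := by
  obtain ⟨C, hC⟩ := h.bd j hj
  refine ⟨C, fun a t => ?_⟩
  have := hC a t (mem_univ t)
  rw [norm_iteratedFDeriv_eq_norm_iteratedDeriv, Real.norm_eq_abs] at this
  simpa using this

theorem t1_mu (h : ∀ a, PkOk (q a) (d a)) : T1 k fun a => (d a).μ := by
  refine T1.of (fun a => (h a).ph.isμ.sm) fun j _ => ?_
  rcases j with _ | j
  · exact ⟨1 / 8, fun a t => by rw [iteratedDeriv_zero]; exact (h a).ph.μb t⟩
  · exact ⟨muC j * (1 / 8), fun a t => ((h a).ph.isμ.bj j t).trans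
      (mul_le_mul_of_nonneg_left (h a).ph.b0 (muC_nn j))⟩

theorem t1_st (hR : ∀ a, 1 ≤ (q a).R) : T1 (k + 1) fun a s =>
    Real.smoothTransition (2 * ((s - (d a).l₀ (q a)) / (q a).R) - 1) := by
  have hs : ∀ a, ContDiff ℝ ∞ fun s => 2 * ((s - (d a).l₀ (q a)) / (q a).R) - 1 := fun a =>
    (contDiff_const.mul ((contDiff_id.sub contDiff_const).div_const _)).sub contDiff_const
  have hd : ∀ a, ∀ s, fderiv ℝ (fun s => 2 * ((s - (d a).l₀ (q a)) / (q a).R) - 1) s =
      (2 / (q a).R) • ContinuousLinearMap.id ℝ ℝ := by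
    intro a s
    have h1 : HasDerivAt (fun s => 2 * ((s - (d a).l₀ (q a)) / (q a).R) - 1)
        (2 * (1 / (q a).R)) s :=
      ((((hasDerivAt_id s).sub_const _).div_const _).const_mul 2).sub_const 1
    have h2 := h1.hasFDerivAt.fderiv
    rw [h2]
    ext
    simp [div_eq_mul_inv]
  refine Sf.compD (ρ := fun _ _ => 1) (g := fun _ _ => 1)
    (f := fun a s => 2 * ((s - (d a).l₀ (q a)) / (q a).R) - 1) (fun _ => isOpen_univ)
    (fun _ _ _ => one_ne_zero) (fun a => (hs a).contDiffOn) k (fun _ => Real.smoothTransition)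
    (fun _ _ => 1) (fun _ => Real.smoothTransition.contDiff) (fun j _ => ?_) ?_
  · obtain ⟨B, -, hB⟩ := st_stp.bdd j
    exact ⟨B, fun a z _ => by simpa using hB _⟩
  · refine (Sf.const (fun _ => univ) (fun _ _ => 1) (fun _ _ => 1 * (1 : ℝ)⁻¹) k
      (fun a => (2 / (q a).R) • ContinuousLinearMap.id ℝ ℝ) ⟨2, fun a z _ => ?_⟩).congr
        (fun _ => isOpen_univ) fun a z _ => hd a z
    have hR0 : 0 < (q a).R := one_pos.trans_le (hR a)
    rw [norm_smul, Real.norm_eq_abs, abs_of_pos (by positivity), inv_one, mul_one, mul_one]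
    have h1 : ‖ContinuousLinearMap.id ℝ ℝ‖ ≤ 1 := ContinuousLinearMap.norm_id_le
    have h2 : 2 / (q a).R ≤ 2 := by
      rw [div_le_iff₀ hR0]
      linarith [hR a]
    calc 2 / (q a).R * ‖ContinuousLinearMap.id ℝ ℝ‖ ≤ 2 * 1 :=
          mul_le_mul h2 h1 (norm_nonneg _) zero_le_two
      _ = 2 := by norm_num

/-- **All derivatives of the correction are bounded.** -/
theorem t1_muc (hR : ∀ a, 1 ≤ (q a).R) (h : ∀ a, PkOk (q a) (d a)) :
    T1 (k + 1) fun a => (d a).μc (q a) := by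
  have h1 := (Sf.const1 (α := α) (fun _ => (univ : Set ℝ)) (fun _ _ => 1) (k + 1) (1 : ℝ)).sub
    (fun _ => isOpen_univ) (t1_st (k := k) (d := d) hR)
  have h2 := (t1_mu (k := k + 1) h).mul (fun _ => isOpen_univ) h1
  have h3 : Sf (fun (_ : α) => (univ : Set ℝ)) (fun _ _ => 1) (fun _ _ => 1) (k + 1)
      fun a s => (d a).μ s *
        (1 - Real.smoothTransition (2 * ((s - (d a).l₀ (q a)) / (q a).R) - 1)) :=
    h2.wcongr fun a z _ => by simp
  exact h3

end Vale.Agent.P088.R2.H814.An
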