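import Vale.Agent.P088.R2.H814.B2.Pm
import Vale.Agent.P088.R2.H814.B2.Ic
import Vale.Agent.P088.R2.H657.W.Fam
import Vale.Agent.P088.R2.H768.W.FarJ

/-!
# The near weight of the data package: the structures `Nw` and `Ts`
-/

open Set Filter
open scoped ContDiff Topology Matrix

noncomputable section

namespace Vale.Agent.P088.R2.H814.An

open Vale.Agent.P088.LR Vale.Agent.P088.HY Vale.Agent.P088.R2.H31.EP
open Vale.Agent.P088.R2.H961.GW Vale.Agent.P088.R2.H644.Sy Vale.Agent.P088.R2.H464.Cu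
open Vale.Agent.P088.R2.H932.EP Vale.Agent.P088.R2.H657.W
open Vale.Agent.P088.R2.H644.Ep (Lg)
open Vale.Agent.P088.R2.H475 (levG)

variable {n k : ℕ} {α : Type*}

theorem Dn.congr {E ι κ : Type*} [NormedAddCommGroup E] [NormedSpace ℝ E] {P : ι → E} {Q : κ → E}
    {U : α → Set E} {r : α → E → ℝ} {u u' : α → E → ℝ} (B : Bs U r) (h : Dn P Q U r k u)
    (e : ∀ a, ∀ z ∈ U a, u' a z = u a z) : Dn P Q U r k u' :=
  ⟨fun a => (h.1 a).congr (e a),
    fun i => (h.2.1 i).congr B fun a _ hz => dd_congr (B.op a) (e a) _ hz,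
    fun l => (h.2.2 l).congr B fun a _ hz => dd_congr (B.op a) (e a) _ hz⟩

/-- The conditions on the constants. -/
structure Zq (n : ℕ) (q : Cst) : Prop where
  cd : CdC n q
  lev : ∀ j ≤ 3, ∀ (kap Gs : ℝ) (x : V n),
    ‖iteratedFDeriv ℝ (j + 2) (levG n q.σ q.R kap Gs) x‖ ≤ 1
  ε1 : q.ε ≤ rd0 n
  ε2 : n * (cG n 6 * q.ε) ≤ 1 / 2
  rd : 1 ≤ q.r₁ * Real.exp (-1)
  M1 : 1 ≤ q.M₀
  e0 : 0 < q.e₁

namespace Zq

variable {q : Cst}

theorem ε0 (h : Zq n q) : 0 ≤ q.ε := h.cd.ε0.le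

theorem R1 (h : Zq n q) : 1 ≤ q.R := h.cd.inf.R1

theorem R0 (h : Zq n q) : 0 < q.R := one_pos.trans_le h.R1

theorem εn (h : Zq n q) : n * q.ε ≤ 1 / 2 := by
  have h1 := rd0_n n
  have h2 := h.ε1
  have h3 := rd0_pos n
  have : (n : ℝ) * q.ε ≤ n * (2 * rd0 n) :=
    mul_le_mul_of_nonneg_left (by linarith) (Nat.cast_nonneg n)
  linarith

theorem ε3 (h : Zq n q) : q.ε ≤ 1 := by
  refine h.ε1.trans ?_
  unfold rd0
  rw [div_le_one (by positivity)]
  have : (0 : ℝ) ≤ n := Nat.cast_nonneg n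
  linarith

end Zq

/-- The family: an open set near the diagonal, a scale. -/
structure Rz (q : α → Cst) (d : α → Pk n) (U : α → Set (VV n)) (r : α → VV n → ℝ) (c : PhC) :
    Prop where
  zq : ∀ a, Zq n (q a)
  pk : ∀ a, PkOk (q a) (d a)
  hc : ∀ a, (q a).ph = c
  op : ∀ a, IsOpen (U a)
  h1 : ∀ a, ∀ z ∈ U a, (d a).r2 z < 1
  h2 : ∀ a, ∀ z ∈ U a, (d a).u0 z ≤ 2 * (d a).l₀ (q a) + 5 * (q a).R
  hx : ∀ a, ∀ z ∈ U a, (d a).l z.1 ≤ (d a).l₀ (q a) + 26 / 10 * (q a).R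
  hy : ∀ a, ∀ z ∈ U a, (d a).l z.2 ≤ (d a).l₀ (q a) + 26 / 10 * (q a).R
  hu : ∀ a, ∀ z ∈ U a, (d a).u (q a) z ≤ (d a).uta (q a)
  r1 : ∀ a, ∀ z ∈ U a, √((d a).r2 z) ≤ r a z
  r2 : ∀ a, ∀ z ∈ U a, r a z ≤ 1
  Ne : ∀ a, ∀ z ∈ U a, (d a).N (q a) z ≤ (d a).E (q a) z * r a z

theorem op_le {L : V n →L[ℝ] ℝ} {C : ℝ} (h : ∀ i, |L (Pi.single i 1)| ≤ C) (hC : 0 ≤ C) :
    ‖L‖ ≤ n * C := by
  refine ContinuousLinearMap.opNorm_le_bound _ (by positivity) fun v => ?_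
  have e : L v = ∑ i, v i * L (Pi.single i 1) := by
    conv_lhs => rw [H464.Cu.vec_sum v]
    rw [map_sum]
    exact Finset.sum_congr rfl fun i _ => by rw [map_smul, smul_eq_mul]
  rw [e, Real.norm_eq_abs]
  refine (Finset.abs_sum_le_sum_abs _ _).trans ?_
  have h1 : ∀ i ∈ Finset.univ, |v i * L (Pi.single i 1)| ≤ C * ‖v‖ := fun i _ => by
    rw [abs_mul, mul_comm]
    exact mul_le_mul (h i) (norm_le_pi_norm v i) (abs_nonneg _) hC
  refine (Finset.sum_le_sum h1).trans (le_of_eq ?_)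
  rw [Finset.sum_const, Finset.card_univ, Fintype.card_fin, nsmul_eq_mul]
  ring

namespace Rz

variable {q : α → Cst} {d : α → Pk n} {U : α → Set (VV n)} {r : α → VV n → ℝ} {c : PhC}

theorem B (h : Rz q d U r c) : Bs U r where
  op := h.op
  r0 a z hz := (Real.sqrt_nonneg _).trans (h.r1 a z hz)
  r1 := h.r2

theorem cd (h : Rz q d U r c) (a : α) {z : VV n} (hz : z ∈ U a) :
    Cd cD (Ow n (q a).σ (q a).R) (gi (d a).s₁) (d a).l ((d a).μc (q a)) ((d a).u (q a)) z :=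
  (h.zq a).cd.cd (h.pk a) (h.h1 a z hz) (h.h2 a z hz)

theorem lit (h : Rz q d U r c) (a : α) :
    (d a).l = levG n (q a).σ (q a).R (d a).kap (d a).Gs := (h.pk a).lev.lit

theorem dl1 (h : Rz q d U r c) (a : α) {x : V n} (hx : x ∈ Ow n (q a).σ (q a).R) :
    ‖fderiv ℝ (d a).l x‖ ≤ n * 2 := by
  have i := (h.zq a).cd.inf
  have h1 := Lb_Ow (n := n) (kap := (d a).kap) (Gs := (d a).Gs) i.σ0 i.σ1 i.R1
  rw [← h.lit a] at h1
  exact op_le (fun k => h1.d1 x hx k) zero_le_two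

theorem tr1 (h : Rz q d U r c) (a : α) : TR 6 (q a).ε (q a).R (d a).s₁ :=
  (Rg.t1 (h.pk a).rg).mono (h.zq a).R0 (by norm_num) le_rfl

theorem tr2 (h : Rz q d U r c) (a : α) : TR 6 (q a).ε (q a).R (d a).s₂ :=
  (Rg.t2 (h.pk a).rg).mono (h.zq a).R0 (by norm_num) le_rfl

/-- The entries are symbols of size `1` at the scale `1`. -/
theorem tr_s {K : ℕ} {O : α → Set (V n)} {ρ e : α → ℝ} {S : α → MF n} (hO : ∀ a, IsOpen (O a))
    (h : ∀ a, TR K (e a) (ρ a) (S a)) (hR : ∀ a, 1 ≤ ρ a) (h0 : ∀ a, 0 ≤ e a) {A : ℝ}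
    (hA : ∀ a, e a ≤ A) (i j : Fin n) :
    Sf O (fun _ _ => 1) (fun _ _ => 1) K (fun a x => S a x i j) :=
  (TR.sf1 h hO (fun a => one_pos.trans_le (hR a)) h0 hA i j).mono_ρ
    (fun a _ _ => one_pos.trans_le (hR a)) (fun _ _ _ => one_pos) (fun _ _ _ => zero_le_one)
    (A := 1) fun a _ _ => by rw [one_mul]; exact hR a

/-- **The family `Lg` at the scale `1`.** -/
theorem lg (h : Rz q d U r c) : Lg (fun a => Ow n (q a).σ (q a).R) U (fun _ => 1)
    (fun a => (d a).l) (fun a => gi (d a).s₁) 1 4 := by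
  have hi : ∀ a, TR 6 (cG n 6 * (q a).ε) (q a).R (gi (d a).s₁) := fun a =>
    (h.tr1 a).inv (h.zq a).R0 (h.zq a).ε3 (h.zq a).εn
  exact
  { oO := fun a => Ow_open _ _
    oU := h.op
    hx := fun a z hz => (h.cd a hz).hx
    hy := fun a z hz => (h.cd a hz).hy
    hm := fun a z hz => (h.cd a hz).hm
    R1 := fun _ => le_rfl
    sl := fun a => (h.pk a).l_sm.contDiffOn
    dl :=
      { sm := fun a => ((h.pk a).l_sm.fderiv_right (m := ∞) (by norm_num)).contDiffOn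
        bd := fun j hj => by
          rcases j with _ | j
          · refine ⟨n * 2, fun a x hx => ?_⟩
            rw [norm_iteratedFDeriv_zero]
            simpa using h.dl1 a hx
          · refine ⟨1, fun a x _ => ?_⟩
            rw [norm_iteratedFDeriv_fderiv, h.lit a]
            simpa using (h.zq a).lev j (by omega) (d a).kap (d a).Gs x }
    sg := fun i j => (tr_s (fun a => Ow_open _ _) hi (fun a => (h.zq a).R1)
      (fun a => mul_nonneg (cG_nn n 6) (h.zq a).ε0) (A := cG n 6)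
      (fun a => mul_le_of_le_one_right (cG_nn n 6) (h.zq a).ε3) i j).mono_k (by norm_num)
    nr := fun a => ⟨_, _, _, (h.zq a).ε2, (hi a).nr (by norm_num) _⟩
    rR := fun a z hz => by
      rw [one_mul]
      exact (h.r1 a z hz).trans (h.r2 a z hz) }

/-- `u` on `U`. -/
theorem u_eq (h : Rz q d U r c) (a : α) {z : VV n} (hz : z ∈ U a) : (d a).u (q a) z =
    uf (d a).l z + 2 * (d a).μc (q a) ((d a).l (mid z)) := by
  have h1 : (d a).χ (H31.EP.r2 (gi (d a).s₁) z) = 1 := (h.pk a).χ1 _ (h.h1 a z hz).le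
  have e : (d a).u (q a) z = (d a).l z.1 + (d a).l z.2 +
      2 * ((d a).χ (H31.EP.r2 (gi (d a).s₁) z) * (d a).μc (q a) ((d a).l (mid z))) := rfl
  rw [e, h1, one_mul]
  rfl

/-- **The exponent.** -/
theorem du (h : Rz q d U r c) : Dn (Pd (n := n)) Qd U r 4 fun a => (d a).u (q a) := by
  have g := h.lg
  have h1 : Dn (Pd (n := n)) Qd U r 4 fun a => uf (d a).l := Dn.of_sf h.B g.sm_uf g.s_uf
  have h2 : Sf U (fun _ _ => 1) (fun _ _ => 1) 5 fun a z => (d a).μc (q a) ((d a).l (mid z)) := by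
    refine Sf.compD (ρ := fun _ _ => 1) (g := fun _ _ => 1) h.op (fun _ _ _ => one_ne_zero)
      g.sm_lm 4 (fun a => (d a).μc (q a)) (fun _ _ => 1) (fun a => (h.pk a).μ_sm)
      (fun j hj => ?_) (g.s_lmn.wcongr fun _ _ _ => by simp)
    obtain ⟨C, hC⟩ := T1.bd' (t1_muc (k := 4) (fun a => (h.zq a).R1) h.pk) hj
    exact ⟨C, fun a z _ => by simpa using hC a _⟩
  have h3 := An.dn h.B (An.of_sf (P := Pd (n := n)) (Q := Qd) h.B (h2.csmul h.op 2))
  refine (h1.add h.B h3).congr h.B fun a z hz => ?_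
  rw [h.u_eq a hz, smul_eq_mul]

/-- **The distance.** -/
theorem dr (h : Rz q d U r c) : AV U r (fun _ _ => 1) 4 2 fun a => (d a).r2 := by
  have g := h.lg
  have h1 := an_rq (k := 4) (A := 3) h.B g.oO g.hm (fun _ => one_pos) (fun _ => by norm_num)
    (fun i j => (g.sg i j).mono_k (by norm_num)) (fun a z hz i => (g.dif a hz i).trans
      (mul_le_mul_of_nonneg_left (h.r1 a z hz) (by norm_num)))
  exact (h1.cmul h.B (fun _ _ _ => zero_le_one) 2).congr h.B fun a z _ => rfl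

/-- The weight on `U`. -/
theorem w_eq (h : Rz q d U r c) (a : α) {z : VV n} (hz : z ∈ U a) : (d a).W (q a) z =
    (d a).Φ ((d a).u (q a) z) + Real.exp ((d a).u (q a) z) * H644.Fs (2 ^ 2) ((d a).r2 z) := by
  have pk := h.pk a
  have hR := (h.zq a).R0
  have hx := h.hx a z hz
  have hy := h.hy a z hz
  have p1 : (d a).P z.1 = z.1 := pk.ret.id _ (by linarith)
  have p2 : (d a).P z.2 = z.2 := pk.ret.id _ (by linarith)
  have e1 : (d a).W (q a) z = WW ((d a).F (q a)) (d a).l (gi (d a).s₁)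
      ((d a).P z.1, (d a).P z.2) + ((d a).Θ ((d a).l z.1) + (d a).Θ ((d a).l z.2)) := rfl
  have hr2 : H31.EP.r2 (gi (d a).s₁) z < 1 := h.h1 a z hz
  have e2 : WW ((d a).F (q a)) (d a).l (gi (d a).s₁) z = _ :=
    H644.Ep.WW_near (rd := (q a).r₁ * Real.exp (-1)) pk.ok rfl (by
      have h1 := (h.zq a).rd
      have h2 : (1 : ℝ) ≤ ((q a).r₁ * Real.exp (-1)) ^ 2 := one_le_pow₀ h1
      linarith)
  rw [e1, p1, p2, pk.Θ0 _ hx, pk.Θ0 _ hy, add_zero, add_zero, Prod.mk.eta, e2]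
  have e3 : ((d a).F (q a)).S (H31.EP.r2 (gi (d a).s₁) z) = H644.Fs (2 ^ 2) ((d a).r2 z) :=
    (H768.FarJ.pp (h.zq a).e0).Ph_eq (by
      have : ((20 : ℝ)) ^ 2 = 400 := by norm_num
      unfold rp
      linarith)
  rw [e3]
  rfl

/-- **The near weight.** -/
theorem nw (h : Rz q d U r c) : Nw U r (fun a => (d a).N (q a)) (fun a => (d a).u (q a))
    (fun a => (d a).r2) (fun a => (d a).W (q a)) (fun a => (d a).Φ) (H644.Fs (2 ^ 2)) 1 3 where
  B := h.B
  N0 a z _ := (h.pk a).N_pos (h.zq a).M1 _ |>.le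
  Ne := h.Ne
  du := h.du
  dρ := h.dr
  hc a z hz := by
    have h0 : 0 ≤ (d a).r2 z := h.lg.r20 a hz
    rw [abs_of_nonneg h0]
    exact (h.h1 a z hz).le
  sS := H644.contDiff_Fs _
  S0 := by simp [H644.Fs]
  sΦ a := (h.pk a).Φs
  bd m := by
    rcases m with _ | m
    · refine ⟨1, fun a z _ => ?_⟩
      rw [zero_add, iteratedDeriv_one, one_mul]
      exact (abs_of_pos ((h.pk a).N_pos (h.zq a).M1 _)).le
    · refine ⟨|c.Ct m| * (2 + 1 / 20), fun a z hz => ?_⟩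
      have pk := h.pk a
      have h1 := pk.top.kd m _ (h.hu a z hz)
      have h2 := pk.top.k1 _ (h.hu a z hz)
      have h3 := (pk.top.k0 ((d a).u (q a) z)).le
      rw [h.hc a] at h1
      refine h1.trans ?_
      rw [mul_assoc]
      refine (mul_le_mul_of_nonneg_right (le_abs_self _) h3).trans ?_
      exact mul_le_mul_of_nonneg_left h2 (abs_nonneg _)
  eW a z hz := h.w_eq a hz

end Rz

end Vale.Agent.P088.R2.H814.An
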