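import Vale.Agent.P088.R2.H814.B2.Pz

/-!
# The tensors of the data package: the structure `Ts`; `Wb`, `Wf` on the package
-/

open Set Filter
open scoped ContDiff Topology Matrix

noncomputable section

namespace Vale.Agent.P088.R2.H814.An

open Vale.Agent.P088.LR Vale.Agent.P088.HY Vale.Agent.P088.R2.H31.EP
open Vale.Agent.P088.R2.H961.GW Vale.Agent.P088.R2.H644.Sy Vale.Agent.P088.R2.H464.Cu
open Vale.Agent.P088.R2.H932.EP Vale.Agent.P088.R2.H657.W
open Vale.Agent.P088.R2.H475.Z (frx fry)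

variable {n k : ℕ} {α : Type*}

theorem min_exp_le {t : ℝ} : min 1 (Real.exp (-(100 * t))) ≤ Real.exp (-(2 * t)) := by
  rcases le_total 0 t with h | h
  · exact (min_le_right _ _).trans (Real.exp_le_exp.2 (by linarith))
  · exact (min_le_left _ _).trans (Real.one_le_exp (by linarith))

namespace Rz

variable {q : α → Cst} {d : α → Pk n} {U : α → Set (VV n)} {r : α → VV n → ℝ} {c : PhC}

/-- The distance of the points. -/
theorem xy (h : Rz q d U r c) (a : α) {z : VV n} (hz : z ∈ U a) : ‖z.1 - z.2‖ ≤ 3 * r a z := by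
  have hr := h.B.r0 a z hz
  rw [pi_norm_le_iff_of_nonneg (by linarith)]
  intro i
  exact (h.lg.dif a hz i).trans (mul_le_mul_of_nonneg_left (h.r1 a z hz) (by norm_num))

theorem l_xy (h : Rz q d U r c) (a : α) {z : VV n} (hz : z ∈ U a) :
    |(d a).l z.1 - (d a).l z.2| ≤ 6 * n := by
  have hc := h.cd a hz
  have h1 := Convex.norm_image_sub_le_of_norm_fderiv_le (𝕜 := ℝ) (f := (d a).l) (C := n * 2)
    (fun x _ => ((h.pk a).l_sm.differentiable (by simp)) x) (fun x hx => h.dl1 a hx)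
    (Ow_conv (q a).σ (q a).R) hc.hy hc.hx
  rw [Real.norm_eq_abs] at h1
  refine h1.trans ?_
  have h2 := h.xy a hz
  have h3 := h.r2 a z hz
  have h4 : (0 : ℝ) ≤ n := Nat.cast_nonneg n
  have h5 : ‖z.1 - z.2‖ ≤ 3 := by linarith
  nlinarith

/-- The scale is not too small. -/
theorem r_ge (h : Rz q d U r c) (a : α) {z : VV n} (hz : z ∈ U a) :
    Real.exp (-(2 * (d a).l z.2)) ≤ Real.exp (6 * n + 1) * r a z := by
  have pk := h.pk a
  have hM := (h.zq a).M1
  have h1 : 1 ≤ Real.exp ((d a).u (q a) z) * r a z :=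
    (hM.trans (pk.N_ge _)).trans (h.Ne a z hz)
  have h2 : (d a).u (q a) z ≤ 2 * (d a).l z.2 + (6 * n + 1) := by
    have e := h.u_eq a hz
    have e1 : uf (d a).l z = (d a).l z.1 + (d a).l z.2 := rfl
    have e2 := abs_le.1 (h.l_xy a hz)
    have e3 := (Pk.μc_abs (d a) (q a) ((d a).l (mid z))).trans (pk.ph.μb _)
    have e4 := abs_le.1 e3
    rw [e, e1]
    linarith [e2.1, e2.2, e4.1, e4.2]
  have h3 : Real.exp ((d a).u (q a) z) ≤
      Real.exp (2 * (d a).l z.2) * Real.exp (6 * n + 1) := by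
    rw [← Real.exp_add]
    exact Real.exp_le_exp.2 h2
  have hr := h.B.r0 a z hz
  have h4 : 1 ≤ Real.exp (2 * (d a).l z.2) * (Real.exp (6 * n + 1) * r a z) := by
    refine h1.trans ?_
    rw [← mul_assoc]
    exact mul_le_mul_of_nonneg_right h3 hr
  rw [Real.exp_neg]
  rwa [inv_le_iff_one_le_mul₀' (Real.exp_pos _)]

/-- The difference of the tensors. -/
theorem dif12 (h : Rz q d U r c) (a : α) {z : VV n} (hz : z ∈ U a) (i j : Fin n) {m : ℕ}
    (hm : m ≤ 1) : ‖iteratedFDeriv ℝ m (fun x => (d a).s₂ x i j - (d a).s₁ x i j) z.2‖ ≤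
      Real.exp (6 * n + 1) * r a z := by
  have rg := (h.pk a).rg
  have hR := (h.zq a).R0
  have hR1 := (h.zq a).R1
  have hr := h.B.r0 a z hz
  have p0 : 0 ≤ Real.exp (6 * n + 1) * r a z := mul_nonneg (Real.exp_pos _).le hr
  rcases le_or_gt (HY.sq z.2) ((5 / 4 * (q a).R) ^ 2) with h1 | h1
  · have e1 := rg.ds i j m (by omega) z.2
    have e2 : lv n (q a).σ (q a).R (d a).kap (d a).Gs z.2 = (d a).l z.2 :=
      ((h.pk a).lev.eq z.2 h1).symm
    rw [e2] at e1
    refine e1.trans ?_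
    have e3 : (q a).ε * (q a).R⁻¹ ^ m ≤ 1 := by
      have : (q a).R⁻¹ ^ m ≤ 1 := pow_le_one₀ (inv_nonneg.2 hR.le) (inv_le_one_of_one_le₀ hR1)
      have := mul_le_mul (h.zq a).ε3 this (pow_nonneg (inv_nonneg.2 hR.le) m) zero_le_one
      linarith
    have e4 : 0 ≤ min 1 (Real.exp (-(100 * (d a).l z.2))) :=
      le_min zero_le_one (Real.exp_pos _).le
    calc (q a).ε * (q a).R⁻¹ ^ m * min 1 (Real.exp (-(100 * (d a).l z.2))) ≤
          1 * min 1 (Real.exp (-(100 * (d a).l z.2))) := mul_le_mul_of_nonneg_right e3 e4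
      _ ≤ Real.exp (-(2 * (d a).l z.2)) := by rw [one_mul]; exact min_exp_le
      _ ≤ _ := h.r_ge a hz
  · have e1 : (fun x => (d a).s₂ x i j - (d a).s₁ x i j) =ᶠ[𝓝 z.2] fun _ => 0 := by
      have e2 : Continuous (HY.sq : V n → ℝ) := by
        unfold HY.sq
        fun_prop
      have e3 : (q a).R ^ 2 < HY.sq z.2 := by
        refine lt_of_le_of_lt ?_ h1
        nlinarith
      filter_upwards [e2.continuousAt.eventually (isOpen_Ioi.mem_nhds e3)] with x hx
      rw [rg.eq x (le_of_lt hx), sub_self]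
    rw [(e1.iteratedFDeriv ℝ m).eq_of_nhds]
    have e4 : iteratedFDeriv ℝ m (fun _ : V n => (0 : ℝ)) z.2 = 0 := by
      rw [show (fun _ : V n => (0 : ℝ)) = 0 from rfl, iteratedFDeriv_zero]
      rfl
    rw [e4, norm_zero]
    exact p0

/-- **The tensors.** -/
theorem ts (h : Rz q d U r c) : Ts U r 3 (fun a => (d a).s₁) fun a => (d a).s₂ where
  y1 a x i j := ((h.pk a).rg.sy₁ x).apply j i
  y2 a x i j := ((h.pk a).rg.sy₂ x).apply j i
  t1 i j := (tr_s (fun _ => isOpen_univ) h.tr1 (fun a => (h.zq a).R1) (fun a => (h.zq a).ε0)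
    (A := 1) (fun a => (h.zq a).ε3) i j).mono_k (by norm_num)
  t2 i j := (tr_s (fun _ => isOpen_univ) h.tr2 (fun a => (h.zq a).R1) (fun a => (h.zq a).ε0)
    (A := 1) (fun a => (h.zq a).ε3) i j).mono_k (by norm_num)
  c1 a x i j := by
    have h1 := (h.tr1 a).cl i j 0 (Nat.zero_le _) x
    rw [norm_iteratedFDeriv_zero, Real.norm_eq_abs, pow_zero, mul_one] at h1
    exact h1.trans (h.zq a).ε1
  c2 a x i j := by
    have h1 := (h.tr2 a).cl i j 0 (Nat.zero_le _) x
    rw [norm_iteratedFDeriv_zero, Real.norm_eq_abs, pow_zero, mul_one] at h1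
    exact h1.trans (h.zq a).ε1
  d0 := ⟨Real.exp (6 * n + 1), fun a z hz i j => by
    have h1 := h.dif12 a hz i j (m := 0) (Nat.zero_le _)
    rw [norm_iteratedFDeriv_zero, Real.norm_eq_abs, abs_sub_comm] at h1
    exact h1⟩
  d1 := ⟨Real.exp (6 * n + 1), fun a z hz i j => by
    have h1 := h.dif12 a hz i j (m := 1) le_rfl
    have s1 : DifferentiableAt ℝ (fun x => (d a).s₁ x i j) z.2 :=
      ((h.pk a).rg.sm₁ i j).differentiable (by simp) _
    have s2 : DifferentiableAt ℝ (fun x => (d a).s₂ x i j) z.2 :=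
      ((h.pk a).rg.sm₂ i j).differentiable (by simp) _
    rw [norm_iteratedFDeriv_one, fderiv_fun_sub s2 s1, norm_sub_rev] at h1
    exact h1⟩
  xy := ⟨3, fun a _ hz => h.xy a hz⟩

/-- **`Wb` on the package.** -/
theorem wb (h : Rz q d U r c) : Wb (Pd (n := n)) Qd (fun a => (d a).sx) (fun a => (d a).sy) U
    (fun _ _ => 1) r (fun a => (d a).E (q a)) (fun a => (d a).N (q a)) fun a => (d a).W (q a) :=
  wb_of h.nw h.ts

/-- **`Wf` on the package.** -/
theorem wf (h : Rz q d U r c) : Wf (Pd (n := n)) Qd (fun a => (d a).sx) (fun a => (d a).sy) U r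
    (fun a b i => frx (d a).s₁ b i) fun a b i => fry (d a).s₂ b i :=
  wf_fr h.B h.ts

end Rz

end Vale.Agent.P088.R2.H814.An
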