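import Vale.Agent.P088.R2.H814.B2.Pz2

/-!
# The regions of zone II and of the core on the package; the conditions on the constants
-/

open Set Filter
open scoped ContDiff Topology Matrix

noncomputable section

namespace Vale.Agent.P088.R2.H814.An

open Vale.Agent.P088.LR Vale.Agent.P088.HY Vale.Agent.P088.R2.H31.EP
open Vale.Agent.P088.R2.H961.GW Vale.Agent.P088.R2.H644.Sy Vale.Agent.P088.R2.H464.Cu
open Vale.Agent.P088.R2.H932.EP Vale.Agent.P088.R2.H657.W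
open Vale.Agent.P088.R2.H475 (levG)

variable {n k : ℕ} {α : Type*} {q : Cst} {d : Pk n} {z : VV n}

/-- All conditions on the constants. -/
structure Zq' (n : ℕ) (q : Cst) : Prop extends Zq n q where
  Rn : 10 * n + 1 ≤ q.R

/-- The exponent and the levels. -/
theorem u_u0 (h : PkOk q d) (z : VV n) : |d.u q z - d.u0 z| ≤ 1 / 4 := by
  have e : d.u q z - d.u0 z =
      2 * (d.χ (H31.EP.r2 (gi d.s₁) z) * d.μc q (d.l (mid z))) := by
    have e1 : d.u q z = d.l z.1 + d.l z.2 +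
        2 * (d.χ (H31.EP.r2 (gi d.s₁) z) * d.μc q (d.l (mid z))) := rfl
    rw [e1, Pk.u0]
    ring
  have h1 := h.χb (H31.EP.r2 (gi d.s₁) z)
  have h2 := (Pk.μc_abs d q (d.l (mid z))).trans (h.ph.μb _)
  rw [e, abs_mul, abs_mul, abs_of_nonneg h1.1, abs_of_pos two_pos]
  have h3 := mul_le_mul h1.2 h2 (abs_nonneg _) zero_le_one
  linarith

theorem near_l (zq : Zq' n q) (h : PkOk q d) (hr : d.r2 z < 1) (hu : d.u q z < d.uta q) :
    d.u0 z ≤ 2 * d.l₀ q + 5 * q.R ∧ d.l z.1 ≤ d.l₀ q + 26 / 10 * q.R ∧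
      d.l z.2 ≤ d.l₀ q + 26 / 10 * q.R := by
  have hR := zq.R1
  have hRn := zq.Rn
  have h1 := abs_le.1 (u_u0 h z)
  have hu' : d.u q z < 2 * d.l₀ q + 45 / 10 * q.R := hu
  have h2 : d.u0 z ≤ 2 * d.l₀ q + 5 * q.R := by linarith [h1.1]
  have c := zq.cd.cd h hr h2
  have hn : (0 : ℝ) ≤ n := Nat.cast_nonneg n
  have i := zq.cd.inf
  have hl := Lb_Ow (n := n) (kap := d.kap) (Gs := d.Gs) i.σ0 i.σ1 i.R1
  rw [← h.lev.lit] at hl
  have hε : (n : ℝ) * (1 / (2 * (n + 1))) ≤ 1 / 2 := by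
    rw [mul_one_div, div_le_iff₀ (by positivity)]
    linarith
  have hd : ∀ i, |dif z i| ≤ 3 := fun i => by
    refine (dif_le c.gn hε c.hm i).trans ?_
    have h3 : √(2 * rq (gi d.s₁) z) ≤ 1 := Real.sqrt_le_one.2 hr.le
    have h4 : √(rq (gi d.s₁) z) ≤ 1 := by
      refine Real.sqrt_le_one.2 ?_
      have h5 : 2 * rq (gi d.s₁) z < 1 := hr
      linarith
    linarith
  have hxy : ‖z.1 - z.2‖ ≤ 3 := by
    rw [pi_norm_le_iff_of_nonneg (by norm_num)]
    exact hd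
  have h5 := Convex.norm_image_sub_le_of_norm_fderiv_le (𝕜 := ℝ) (f := d.l) (C := n * 2)
    (fun x _ => (h.l_sm.differentiable (by simp)) x)
    (fun x hx => op_le (fun k => hl.d1 x hx k) zero_le_two) (Ow_conv q.σ q.R) c.hy c.hx
  rw [Real.norm_eq_abs] at h5
  have h6 : |d.l z.1 - d.l z.2| ≤ 6 * n := h5.trans (by nlinarith)
  have h7 := abs_le.1 h6
  have h8 : d.u0 z = d.l z.1 + d.l z.2 := rfl
  refine ⟨h2, ?_, ?_⟩ <;> linarith [h7.1, h7.2, h1.1]

theorem u_cont (zq : Zq n q) (h : PkOk q d) : Continuous (d.u q) :=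
  (h.u_sm fun i j => h.gi_sm zq.εn i j).continuous

theorem r2_cont (zq : Zq n q) (h : PkOk q d) : Continuous d.r2 :=
  (contDiff_const.mul (h.rq_sm zq.εn) : ContDiff ℝ ∞ fun z => 2 * rq (gi d.s₁) z).continuous

/-- The region of zone II. -/
def U2 (q : Cst) (d : Pk n) : Set (VV n) :=
  {z | (d.r2 z < 1 ∧ d.u q z < d.uta q) ∧ d.N q z < d.E q z * √(d.r2 z)}

/-- The region of the core. -/
def UB (q : Cst) (d : Pk n) : Set (VV n) :=
  {z | (d.r2 z < 1 ∧ d.u q z < d.uta q) ∧ √(d.r2 z) + d.N q z / d.E q z < 1}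

theorem U2_open (zq : Zq n q) (h : PkOk q d) : IsOpen (U2 q d) := by
  have h1 := u_cont zq h
  have h2 := r2_cont zq h
  have h3 : Continuous (d.N q) := h.Φ's.continuous.comp h1
  have h4 : Continuous (d.E q) := Real.continuous_exp.comp h1
  exact ((isOpen_lt h2 continuous_const).inter (isOpen_lt h1 continuous_const)).inter
    (isOpen_lt h3 (h4.mul (Real.continuous_sqrt.comp h2)))

theorem UB_open (zq : Zq n q) (h : PkOk q d) : IsOpen (UB q d) := by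
  have h1 := u_cont zq h
  have h2 := r2_cont zq h
  have h3 : Continuous (d.N q) := h.Φ's.continuous.comp h1
  have h4 : Continuous (d.E q) := Real.continuous_exp.comp h1
  exact ((isOpen_lt h2 continuous_const).inter (isOpen_lt h1 continuous_const)).inter
    (isOpen_lt ((Real.continuous_sqrt.comp h2).add (h3.div h4 fun z => (Real.exp_pos _).ne'))
      continuous_const)

/-- The index of the family. -/
def Ix (n : ℕ) (c : PhC) : Type := {p : Cst × Pk n // Zq' n p.1 ∧ PkOk p.1 p.2 ∧ p.1.ph = c}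

/-- **The family of zone II.** -/
theorem rz2 (n : ℕ) (c : PhC) : Rz (n := n) (fun a : Ix n c => a.1.1) (fun a => a.1.2)
    (fun a => U2 a.1.1 a.1.2) (fun a z => √(a.1.2.r2 z)) c where
  zq a := a.2.1.toZq
  pk a := a.2.2.1
  hc a := a.2.2.2
  op a := U2_open a.2.1.toZq a.2.2.1
  h1 _ _ hz := hz.1.1
  h2 a _ hz := (near_l a.2.1 a.2.2.1 hz.1.1 hz.1.2).1
  hx a _ hz := (near_l a.2.1 a.2.2.1 hz.1.1 hz.1.2).2.1
  hy a _ hz := (near_l a.2.1 a.2.2.1 hz.1.1 hz.1.2).2.2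
  hu _ _ hz := hz.1.2.le
  r1 _ _ _ := le_rfl
  r2 _ _ hz := Real.sqrt_le_one.2 hz.1.1.le
  Ne _ _ hz := hz.2.le

/-- **The family of the core.** -/
theorem rzB (n : ℕ) (c : PhC) : Rz (n := n) (fun a : Ix n c => a.1.1) (fun a => a.1.2)
    (fun a => UB a.1.1 a.1.2) (fun a z => √(a.1.2.r2 z) + a.1.2.N a.1.1 z / a.1.2.E a.1.1 z) c where
  zq a := a.2.1.toZq
  pk a := a.2.2.1
  hc a := a.2.2.2
  op a := UB_open a.2.1.toZq a.2.2.1
  h1 _ _ hz := hz.1.1
  h2 a _ hz := (near_l a.2.1 a.2.2.1 hz.1.1 hz.1.2).1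
  hx a _ hz := (near_l a.2.1 a.2.2.1 hz.1.1 hz.1.2).2.1
  hy a _ hz := (near_l a.2.1 a.2.2.1 hz.1.1 hz.1.2).2.2
  hu _ _ hz := hz.1.2.le
  r1 a z _ := le_add_of_nonneg_right
    (div_nonneg (a.2.2.1.N_pos a.2.1.M1 _).le (Real.exp_pos _).le)
  r2 _ _ hz := hz.2.le
  Ne a z _ := by
    have hE : 0 < a.1.2.E a.1.1 z := Real.exp_pos _
    have e : a.1.2.E a.1.1 z * (√(a.1.2.r2 z) + a.1.2.N a.1.1 z / a.1.2.E a.1.1 z) =
        a.1.2.E a.1.1 z * √(a.1.2.r2 z) + a.1.2.N a.1.1 z := by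
      field_simp
    rw [e]
    exact le_add_of_nonneg_left (mul_nonneg hE.le (Real.sqrt_nonneg _))

end Vale.Agent.P088.R2.H814.An
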