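import Vale.Agent.P088.R2.H814.B2.Pz3
import Vale.Agent.P088.R2.H31.EP.CstL
import Vale.Agent.P088.R2.H475.INF.LevD

/-!
# The conditions on the constants hold eventually
-/

open Set Filter
open scoped ContDiff Topology Matrix

noncomputable section

namespace Vale.Agent.P088.R2.H814.An

open Vale.Agent.P088.LR Vale.Agent.P088.HY Vale.Agent.P088.R2.H31.EP
open Vale.Agent.P088.R2.H932.EP Vale.Agent.P088.R2.H657.W
open Vale.Agent.P088.R2.H475 (levG)

variable {n : ℕ}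

theorem lev_ev (hn : 1 ≤ n) : EvC fun q => 0 < q.σ → q.σ ≤ 1 / 5000 → ∀ j ≤ 3,
    ∀ (kap Gs : ℝ) (x : V n), ‖iteratedFDeriv ℝ (j + 2) (levG n q.σ q.R kap Gs) x‖ ≤ 1 := by
  refine EvC.at_R (fun q t => 0 < q.σ → q.σ ≤ 1 / 5000 → ∀ j ≤ 3,
    ∀ (kap Gs : ℝ) (x : V n), ‖iteratedFDeriv ℝ (j + 2) (levG n q.σ t kap Gs) x‖ ≤ 1)
    fun q => ?_
  by_cases h : 0 < q.σ ∧ q.σ ≤ 1 / 5000
  · have hb := fun j => H475.levG_bound (n := n) hn h.1 h.2 j
    choose C hC0 hC using hb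
    filter_upwards [eventually_ge_atTop 1, eventually_ge_atTop (C 0 + C 1 + C 2 + C 3)]
      with t h1 h2 _ _ j hj kap Gs x
    have ht : 0 < t := by linarith
    have hi : t⁻¹ ≤ 1 := inv_le_one_of_one_le₀ h1
    have hi0 : 0 ≤ t⁻¹ := inv_nonneg.2 ht.le
    refine (hC j t kap Gs ht x).trans ?_
    have h3 : C j ≤ t := by
      have a0 := hC0 0
      have a1 := hC0 1
      have a2 := hC0 2
      have a3 := hC0 3
      interval_cases j <;> linarith
    have h4 : t⁻¹ ^ (j + 1) ≤ t⁻¹ := by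
      have := pow_le_pow_of_le_one hi0 hi (show 1 ≤ j + 1 by omega)
      rwa [pow_one] at this
    calc C j * t⁻¹ ^ (j + 1) ≤ t * t⁻¹ :=
          mul_le_mul h3 h4 (pow_nonneg hi0 _) ht.le
      _ = 1 := mul_inv_cancel₀ ht.ne'
  · exact Eventually.of_forall fun t a b => absurd ⟨a, b⟩ h

/-- **The conditions on the constants.** -/
theorem evZq (hn : 1 ≤ n) : EvC (Zq' n) := by
  have h1 := lev_ev hn
  have hd := rd0_pos n
  have hc := cG_nn n 6
  have h2 : EvC fun q => q.ε ≤ rd0 n ∧ n * (cG n 6 * q.ε) ≤ 1 / 2 := by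
    refine EvC.at_ε (fun _ t => t ≤ rd0 n ∧ n * (cG n 6 * t) ≤ 1 / 2) fun _ => ?_
    have hp : 0 < 1 / (2 * (n * cG n 6 + 1)) := by positivity
    filter_upwards [sml_le hd, sml_le hp, sml_pos] with t a1 a2 a3
    refine ⟨a1, ?_⟩
    rw [le_div_iff₀ (by positivity)] at a2
    have : 0 ≤ n * (cG n 6 * t) := by positivity
    nlinarith
  have h3 : EvC fun q => 0 < q.c' → 1 ≤ q.c' * q.M₀ / 2 * Real.exp (-1) := by
    refine EvC.at_M₀ (fun q t => 0 < q.c' → 1 ≤ q.c' * t / 2 * Real.exp (-1)) fun q => ?_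
    by_cases h : 0 < q.c'
    · filter_upwards [eventually_ge_atTop (2 * Real.exp 1 / q.c')] with t ht _
      rw [div_le_iff₀ h] at ht
      have e : Real.exp (-1) * Real.exp 1 = 1 := by rw [← Real.exp_add]; simp
      have := mul_le_mul_of_nonneg_right ht (Real.exp_pos (-1)).le
      nlinarith
    · exact Eventually.of_forall fun t a => absurd a h
  have h4 : EvC fun q => 10 * n + 1 ≤ q.R :=
    EvC.at_R (fun _ t => 10 * n + 1 ≤ t) fun _ => eventually_ge_atTop _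
  refine ((((evCd n).and h1).and (h2.and h3)).and (h4.and EvC.pos)).mono ?_
  rintro q ⟨⟨⟨a1, a2⟩, a3, a4⟩, a5, a6⟩
  exact
    { cd := a1
      lev := a2 a1.inf.σ0 a1.inf.σ1
      ε1 := a3.1
      ε2 := a3.2
      rd := a4 a6.2.1.2.2.1
      M1 := a6.2.2.1
      e0 := a6.1.2.1
      Rn := a5 }

end Vale.Agent.P088.R2.H814.An
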