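import Vale.Agent.P088.R2.H814.B2.AlT
import Vale.Agent.P088.R2.H475.Z.Ze
import Vale.Agent.P088.R2.H867.Z.Cz2

/-!
# P088, zone II: `Ze` on the package
-/

open Set Filter
open scoped ContDiff Topology Matrix

noncomputable section

namespace Vale.Agent.P088.R2.H814.An

open Vale.Agent.P088.LR Vale.Agent.P088.R2.H31.EP
open Vale.Agent.P088.HY hiding dd dd_comm
open Vale.Agent.P088.R2.H961.GW Vale.Agent.P088.R2.H464.Cu
open Vale.Agent.P088.R2.H475.Z (frx fry gII zeII ze_of)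

variable {n : ℕ} {q : Cst} {d : Pk n} {z : VV n} {a X : ℝ} {c : PhC}

theorem sxD (d : Pk n) (i : Fin n) (f : VV n → ℝ) (z : VV n) :
    d.sx.D i f z = An.dd (Qd (Sum.inl i)) f z := one_mul _

theorem syD (d : Pk n) (i : Fin n) (f : VV n → ℝ) (z : VV n) :
    d.sy.D i f z = An.dd (Qd (Sum.inr i)) f z := one_mul _

/-- **The derivatives of `u` and of `r²` in zone II.** -/
theorem ze_pk (n : ℕ) (c : PhC) : ∃ A, 0 ≤ A ∧ ∀ (q : Cst) (d : Pk n), Zq' n q → PkOk q d →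
    q.ph = c → ∀ z ∈ U2 q d, (∀ i, |d.sx.D i (d.u q) z| ≤ A) ∧ (∀ i, |d.sy.D i (d.u q) z| ≤ A) ∧
      (∀ i, |d.sx.D i d.r2 z| ≤ 2 * A * √(d.r2 z)) ∧
        ∀ i, |d.sy.D i d.r2 z| ≤ 2 * A * √(d.r2 z) := by
  have h := rz2 n c
  have h1 := fun l => (h.du.2.2 l).bd
  have h2 := fun l => (h.dr.2.2 l).bd
  choose C1 hC1 using h1
  choose C2 hC2 using h2
  refine ⟨∑ l, (|C1 l| + |C2 l|), Finset.sum_nonneg fun l _ => by positivity,
    fun q d zq pk hc z hz => ?_⟩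
  have hs : ∀ l, |C1 l| + |C2 l| ≤ ∑ l, (|C1 l| + |C2 l|) := fun l =>
    Finset.single_le_sum (f := fun l => |C1 l| + |C2 l|) (fun l _ => by positivity)
      (Finset.mem_univ l)
  have r0 := Real.sqrt_nonneg (d.r2 z)
  have k1 : ∀ l, |An.dd (Qd l) (d.u q) z| ≤ ∑ l, (|C1 l| + |C2 l|) := fun l => by
    have e := hC1 l ⟨(q, d), zq, pk, hc⟩ z hz
    have e1 : |An.dd (Qd l) (d.u q) z| ≤ C1 l := by simpa using e
    have := le_abs_self (C1 l)
    have := abs_nonneg (C2 l)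
    linarith [hs l]
  have k2 : ∀ l, |An.dd (Qd l) d.r2 z| ≤ 2 * (∑ l, (|C1 l| + |C2 l|)) * √(d.r2 z) := fun l => by
    have e := hC2 l ⟨(q, d), zq, pk, hc⟩ z hz
    have e1 : |An.dd (Qd l) d.r2 z| ≤ C2 l * √(d.r2 z) := by simpa using e
    refine e1.trans (mul_le_mul_of_nonneg_right ?_ r0)
    have := le_abs_self (C2 l)
    have := abs_nonneg (C1 l)
    have := abs_nonneg (C2 l)
    linarith [hs l]
  exact ⟨fun i => by rw [sxD]; exact k1 _, fun i => by rw [syD]; exact k1 _,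
    fun i => by rw [sxD]; exact k2 _, fun i => by rw [syD]; exact k2 _⟩

/-- The constant of `ze_pk`. -/
def Kze (n : ℕ) (c : PhC) : ℝ := (ze_pk n c).choose

theorem Kze_nn (n : ℕ) (c : PhC) : 0 ≤ Kze n c := (ze_pk n c).choose_spec.1

theorem nb_Kze (n : ℕ) : NB_ηc fun q => Kze n q.ph := fun _ => rfl

/-- **`Ze` at a point of zone II**, on every open set containing the point. -/
theorem zeP (zq : Zq' n q) (pk : PkOk q d) (h0 : ∀ z, 0 ≤ rq (gi d.s₁) z) {V : Set (VV n)}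
    (hV : IsOpen V) (hz : z ∈ V) (hz2 : z ∈ U2 q d) {L : ℝ} (hL : 0 < L) :
    Ze d.sx d.sy V (zeII L (d.u q) d.r2) (√(d.r2 z))
      (zeII L (d.u q) d.r2 z ^ 2 * √(d.r2 z) ^ 2) (Kze n q.ph) z := by
  obtain ⟨k1, k2, k3, k4⟩ := (ze_pk n q.ph).choose_spec.2 q d zq pk rfl z hz2
  have hr0 : ∀ z, 0 ≤ d.r2 z := fun z => by
    have := h0 z
    have e : d.r2 z = 2 * rq (gi d.s₁) z := rfl
    rw [e]; positivity
  have su : Sm V (d.u q) := (pk.u_sm fun i j => pk.gi_sm zq.εn i j).contDiffOn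
  have sr : Sm V d.r2 :=
    (contDiff_const.mul (pk.rq_sm zq.εn) : ContDiff ℝ ∞ fun z => 2 * rq (gi d.s₁) z).contDiffOn
  exact ze_of hV hL su sr (fun z _ => hr0 z) hz (Real.sqrt_nonneg _)
    (Real.sqrt_le_one.2 hz2.1.1.le) (Kze_nn n q.ph) (Real.sq_sqrt (hr0 z)).symm k1 k2 k3 k4

end Vale.Agent.P088.R2.H814.An
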